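import Crest.Agent.X277.BD.BrA
import Crest.Agent.X262.Alg44.Defs
import Crest.Agent.X262.Sp78.Defs
import Crest.Agent.X277.BD.Mdl
import Crest.Agent.X262.Hor83.Main
import Crest.Agent.R183.CohenEval
import Crest.Agent.R271.UfdC_243
import Crest.Agent.R271.UfdF_243
import Crest.Agent.X262.Fam6.Rem_Mg
import Crest.Agent.X262.Mv99.Mon
import Crest.Agent.X262.Lift8.Defs
import Crest.Agent.X262.Lift8.Abs
import Crest.Agent.X262.Blow.Exc
import Crest.Agent.X277.Cns.Jac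

-- ▼ part X262/Sp78/Dual
section

/-!
# Row 262, G4 / SP (helper78), part 1: a free class on a chart is an invertible module

* `exists_dual` : generators `f j` of a free class and, on every chart, a dual family;
* `mul_pow_mem` : an element of a chart ring times a high power of `y i` is a section.
-/

set_option autoImplicit false

noncomputable section

namespace Crest.Agent.X262.Sp78

open Crest.Agent.X277 Crest.Agent.X277.Lef Crest.Agent.X277.AN.G1 Crest.Agent.X277.BD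
open Crest.Agent.X277.BD.Br

variable {F : Type} [Field F] [Algebra ℂ F] {P : PModel ℂ F} {a : BD ℂ F}

/-- generators of a free class with a dual family on every chart -/
theorem exists_dual (ha : a ∈ On P) (hf : Free a) : ∃ (n : ℕ) (f : Fin n → F),
    (∀ j, f j ∈ a.Sec) ∧ ∀ i, ∃ g : Fin n → F, ∑ j, f j * g j = 1 ∧
      ∀ (k : ℕ), ∀ τ ∈ (a + k • oP P).Sec, ∀ j, τ / P.y i ^ k * g j ∈ P.A i := by
  classical
  obtain ⟨r, f, -, h1, h2⟩ := hf.exists_fam
  obtain ⟨M, hM⟩ := serre (neg_mem ha)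
  replace hM := hM M le_rfl
  refine ⟨r + 1, f, h1, fun i => ?_⟩
  let N : Submodule ℂ F :=
    { carrier := {z | ∃ g : Fin (r + 1) → F,
        (∀ j, ∀ x ∈ pat P i, ∀ h, At a x h → h * g j ∈ (lp x).O) ∧ z = ∑ j, f j * g j}
      add_mem' := by
        rintro _ _ ⟨g, h3, rfl⟩ ⟨g', h4, rfl⟩
        refine ⟨g + g', fun j x hx h hh => ?_, ?_⟩
        · rw [Pi.add_apply, mul_add]
          exact add_mem (h3 j x hx h hh) (h4 j x hx h hh)
        · simp only [Pi.add_apply, mul_add, Finset.sum_add_distrib]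
      zero_mem' := ⟨0, fun j x _ h _ => by simp, by simp⟩
      smul_mem' := by
        rintro c _ ⟨g, h3, rfl⟩
        refine ⟨c • g, fun j x hx h hh => ?_, ?_⟩
        · rw [Pi.smul_apply, mul_smul_comm]
          exact Subalgebra.smul_mem _ (h3 j x hx h hh) c
        · simp only [Pi.smul_apply, mul_smul_comm, Finset.smul_sum] }
  have h3 : (1 : F) ∈ N := by
    refine mem_of_local (i := i) N ?_ fun x hx => ?_
    · rintro c hc _ ⟨g, h3, rfl⟩
      refine ⟨fun j => c * g j, fun j x hx h hh => ?_, ?_⟩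
      · rw [mul_left_comm]
        exact mul_mem (A_le hx hc) (h3 j x hx h hh)
      · simp only [Finset.mul_sum, mul_left_comm]
    · obtain ⟨h, hh⟩ := ha x
      obtain ⟨j, hj⟩ := hh.exists_fam h1 h2
      obtain ⟨s, hs, hs'⟩ := (hh.neg.add ((at_y hx).nsmul M)).exists_sec hM
      have e : a + (-a + M • oP P) = M • oP P := by abel
      refine ⟨f j * s / P.y i ^ M, mem_A_iff.2 fun x' hx' =>
        ((at_y hx').nsmul M).div_mem (e ▸ mul_mem_Sec (h1 j) hs),
        (e ▸ hj.add hs').ev_div_ne ((at_y hx).nsmul M), Pi.single j (s / P.y i ^ M),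
        fun l x' hx' h' hh' => ?_, ?_⟩
      · by_cases hl : l = j
        · subst hl
          have := (hh'.neg.add ((at_y hx').nsmul M)).div_mem hs
          rw [Pi.single_eq_same]
          convert this using 1
          have := hh'.ne
          field_simp
        · rw [Pi.single_eq_of_ne hl, mul_zero]
          exact zero_mem _
      · rw [Finset.sum_eq_single j (fun l _ hl => by rw [Pi.single_eq_of_ne hl, mul_zero])
          (by simp), Pi.single_eq_same, mul_one, mul_div_assoc]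
  obtain ⟨g, h4, h5⟩ := h3
  refine ⟨g, h5.symm, fun k τ hτ j => mem_A_iff.2 fun x hx => ?_⟩
  obtain ⟨h, hh⟩ := ha x
  have := mul_mem ((hh.add ((at_y hx).nsmul k)).div_mem hτ) (h4 j x hx h hh)
  convert this using 1
  have := hh.ne
  field_simp

/-- an element of a chart ring times a high power of the coordinate is a section -/
theorem mul_pow_mem {i : Fin (P.N + 1)} {c : F} (hc : c ∈ P.A i) :
    ∃ N0 : ℕ, ∀ N, N0 ≤ N → c * P.y i ^ N ∈ (N • oP P).Sec := by
  simpa using exists_tw_mem (a := 0) (i := i) (f := c) fun V hV => by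
    simpa using RZ.le_one_iff.2 (hV c hc)

end Crest.Agent.X262.Sp78
end
end

-- ▼ part X262/Sp78/Loc
section

/-!
# Row 262, G4 / SP (helper78), part 2: reductions and the local rings of the total space

* `nrm`, `li`, `finrank_le`, `le_finrank` : linear algebra of a reduction;
* `Loc_eq`, `mem_Lo` : independence of the chart; `LK` : the ring `Lk x` as a subalgebra;
* `A_le_LK`, `mem_Lo_of`, `opn`, `den`.
-/

set_option autoImplicit false

open Filter Topology Module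

noncomputable section

namespace Crest.Agent.X262.Sp78

open Crest.Agent.X277 Crest.Agent.X277.Lef Crest.Agent.X277.AN.G1 Crest.Agent.X277.BD
open Crest.Agent.X262.Alg44

variable {F E : Type} [Field F] [Algebra ℂ F] [Field E] [Algebra ℂ E] (R : Red F E)

/-! ### linear algebra -/

theorem nrm {u : E} (hu : u ≠ 0) : ∃ c : ℂ, c ≠ 0 ∧ c • u ∈ R.O ∧ R.r (c • u) ≠ 0 := by
  obtain ⟨n, b, h1, h2, h3⟩ := R.ge (Submodule.span ℂ {u}) inferInstance
  rcases n with _ | n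
  · rw [Set.range_eq_empty, Submodule.span_empty, eq_comm, Submodule.span_singleton_eq_bot] at h2
    exact absurd h2 hu
  · obtain ⟨c, hc⟩ := Submodule.mem_span_singleton.1
      (h2 ▸ Submodule.subset_span (Set.mem_range_self 0) : b 0 ∈ Submodule.span ℂ {u})
    have h4 := h3.ne_zero 0
    refine ⟨c, fun h => h4 ?_, hc ▸ h1 0, hc ▸ h4⟩
    rw [← hc, h, zero_smul, R.r_zero]

/-- the integral constants form a valuation ring -/
def vo : ValuationSubring ℂ := { R.o with mem_or_inv_mem' := R.val }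

theorem r_smul {c : ℂ} (hc : c ∈ R.o) {u : E} (hu : u ∈ R.O) :
    c • u ∈ R.O ∧ R.r (c • u) = R.z c • R.r u := by
  rw [Algebra.smul_def, Algebra.smul_def, ← R.r_cst hc]
  exact ⟨mul_mem hc hu, R.r_mul hc hu⟩

theorem r_sum {ι : Type*} (s : Finset ι) {u : ι → E} (hu : ∀ i, u i ∈ R.O) :
    R.r (∑ i ∈ s, u i) = ∑ i ∈ s, R.r (u i) := by
  have := map_sum R.ρ (fun i => ⟨u i, hu i⟩) s
  rwa [R.ρ_apply, AddSubmonoidClass.coe_finsetSum] at this

theorem r_prod {ι : Type*} (s : Finset ι) {u : ι → E} (hu : ∀ i, u i ∈ R.O) :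
    R.r (∏ i ∈ s, u i) = ∏ i ∈ s, R.r (u i) := by
  have := map_prod R.ρ (fun i => ⟨u i, hu i⟩) s
  rwa [R.ρ_apply, SubmonoidClass.coe_finsetProd] at this

theorem r_pow {u : E} (hu : u ∈ R.O) (k : ℕ) : R.r (u ^ k) = R.r u ^ k :=
  map_pow R.ρ ⟨u, hu⟩ k

theorem z_one : R.z 1 = 1 := by
  have := R.r_cst (c := 1) (by simp)
  rw [map_one, R.r_one, ← map_one (algebraMap ℂ F)] at this
  exact ((algebraMap ℂ F).injective this).symm

/-- elements with independent reductions are independent -/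
theorem li {ι : Type*} {u : ι → E} (hu : ∀ i, u i ∈ R.O)
    (h : LinearIndependent ℂ fun i => R.r (u i)) : LinearIndependent ℂ u := by
  rw [linearIndependent_iff'] at h ⊢
  intro s c h0 i hi
  obtain ⟨j, hj, h1⟩ := s.exists_max_image (fun i => (vo R).valuation (c i)) ⟨i, hi⟩
  by_cases hc : c j = 0
  · simpa [hc] using h1 i hi
  classical
  have h2 : ∀ l, (if l ∈ s then c l / c j else 0) ∈ R.o := fun l => by
    split_ifs with hl
    · exact ((vo R).valuation_le_one_iff _).1 (by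
        rw [map_div₀]
        exact div_le_one_of_le₀ (h1 l hl) zero_le)
    · exact zero_mem _
  have h3 : ∑ l ∈ s, (if l ∈ s then c l / c j else 0) • u l = 0 := by
    rw [Finset.sum_congr rfl fun l hl => by rw [if_pos hl, div_eq_inv_mul, mul_smul],
      ← Finset.smul_sum, h0, smul_zero]
  have h4 := congrArg R.r h3
  rw [r_sum R s fun l => (r_smul R (h2 l) (hu l)).1, R.r_zero,
    Finset.sum_congr rfl fun l _ => (r_smul R (h2 l) (hu l)).2] at h4
  have h5 := h s _ h4 j hj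
  simp [hj, div_self hc, z_one] at h5

theorem finrank_le {W : Submodule ℂ E} {W₀ : Submodule ℂ F} [Module.Finite ℂ W]
    [Module.Finite ℂ W₀] (h : ∀ u ∈ W, u ∈ R.O → R.r u ∈ W₀) : finrank ℂ W ≤ finrank ℂ W₀ := by
  obtain ⟨n, b, h1, h2, h3⟩ := R.ge W inferInstance
  have h4 : ∀ i, R.r (b i) ∈ W₀ := fun i =>
    h _ (h2 ▸ Submodule.subset_span (Set.mem_range_self i)) (h1 i)
  have h5 : LinearIndependent ℂ fun i => (⟨_, h4 i⟩ : W₀) :=
    LinearIndependent.of_comp W₀.subtype h3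
  rw [← h2]
  exact (finrank_range_le_card b).trans h5.fintype_card_le_finrank

theorem le_finrank {W : Submodule ℂ E} {W₀ : Submodule ℂ F} [Module.Finite ℂ W]
    (h : W₀ ≤ Submodule.span ℂ (R.r '' {u | u ∈ W ∧ u ∈ R.O})) : finrank ℂ W₀ ≤ finrank ℂ W := by
  obtain ⟨b, h1, h2, h3⟩ := exists_linearIndependent ℂ (R.r '' {u | u ∈ W ∧ u ∈ R.O})
  choose u h4 h5 using fun i : b => h1 i.2
  have h7 : LinearIndependent ℂ u := li R (fun i => (h4 i).2) (by simpa only [h5] using h3)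
  have h6 : LinearIndependent ℂ fun i => (⟨_, (h4 i).1⟩ : W) :=
    LinearIndependent.of_comp W.subtype h7
  refine Cardinal.toNat_le_toNat ?_ (rank_lt_aleph0 ℂ W)
  rw [← h2] at h
  exact (Submodule.rank_mono h).trans ((rank_span_set h3).le.trans h6.cardinal_le_rank)

/-! ### local rings -/

variable {R} {P : PModel ℂ F} (G : Pre R P) {i i' : Fin (P.N + 1)} {x : Pts P} {f : E}

theorem ne_of_ev {g : F} (h : ev g x ≠ 0) : g ≠ 0 := fun h0 => h (by
  rw [h0, ← map_zero (algebraMap ℂ F)]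
  exact (lp x).v_alg 0)

theorem Ao_le (hx : x ∈ pat P i) : R.Ao G.y i ≤ G.Loc i x hx := fun f hf =>
  ⟨f, hf, 1, one_mem _, by rw [R.r_one]; simp [ev, LP.v_one], mul_one _⟩

theorem Ao_le_chart (hf : f ∈ R.Ao G.y i) : f ∈ chart ℂ G.y i := by
  refine (Subring.closure_le (t := (chart ℂ G.y i).toSubring)).2 ?_ hf
  rintro _ (⟨c, -, rfl⟩ | ⟨j, rfl⟩)
  · exact algebraMap_mem (chart ℂ G.y i) c
  · exact div_mem_chart G.y i j

theorem y_mem_Ao (i j : Fin (P.N + 1)) : G.y j / G.y i ∈ R.Ao G.y i :=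
  Subring.subset_closure (Or.inr ⟨j, rfl⟩)

theorem o_mem_Ao (i : Fin (P.N + 1)) {c : ℂ} (hc : c ∈ R.o) : algebraMap ℂ E c ∈ R.Ao G.y i :=
  Subring.subset_closure (Or.inl ⟨c, hc, rfl⟩)

theorem Loc_spec {hx : x ∈ pat P i} (hf : f ∈ G.Loc i x hx) : f ∈ R.O ∧ R.r f ∈ (lp x).O := by
  obtain ⟨a, ha, c, hc, h0, h1⟩ := hf
  have h2 := ne_of_ev h0
  have h3 : f ∈ R.O := by
    rw [eq_div_of_mul_eq (Red.ne_zero h2) h1]
    exact Red.div_mem (Pre.Ao_spec ha).1 (Pre.Ao_spec hc).1 h2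
  exact ⟨h3, (mem_lp_iff hx).2 ⟨_, (Pre.Ao_spec ha).2, _, (Pre.Ao_spec hc).2, h0, by
    rw [← R.r_mul h3 (Pre.Ao_spec hc).1, h1]⟩⟩

theorem Loc_inv {hx : x ∈ pat P i} (hf : f ∈ G.Loc i x hx) (h : ev (R.r f) x ≠ 0) :
    f⁻¹ ∈ G.Loc i x hx := by
  have h2 := Loc_spec G hf
  obtain ⟨a, ha, c, hc, h0, h1⟩ := hf
  refine ⟨c, hc, a, ha, ?_, by
    rw [← h1, ← mul_assoc, inv_mul_cancel₀ (Red.ne_zero (ne_of_ev h)), one_mul]⟩
  rw [← h1, R.r_mul h2.1 (Pre.Ao_spec hc).1, ev,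
    (lp x).v_mul h2.2 (A_le hx (Pre.Ao_spec hc).2)]
  exact mul_ne_zero h h0

theorem Loc_le (hx : x ∈ pat P i) (hx' : x ∈ pat P i') : G.Loc i x hx ≤ G.Loc i' x hx' := by
  have h1 : R.Ao G.y i ≤ G.Loc i' x hx' := by
    refine Subring.closure_le.2 ?_
    rintro _ (⟨c, hc, rfl⟩ | ⟨j, rfl⟩)
    · exact Ao_le G hx' (o_mem_Ao G i' hc)
    · have h2 := mul_mem (Ao_le G hx' (y_mem_Ao G i' j)) (Loc_inv G (Ao_le G hx' (y_mem_Ao G i' i))
        (by rw [G.r_div]; exact (mem_pat_iff hx').1 hx))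
      rwa [← div_eq_mul_inv, div_div_div_cancel_right₀ (G.y_ne i')] at h2
  rintro f ⟨a, ha, c, hc, h0, h2⟩
  rw [eq_div_of_mul_eq (Red.ne_zero (ne_of_ev h0)) h2, div_eq_mul_inv]
  exact mul_mem (h1 ha) (Loc_inv G (h1 hc) h0)

theorem Lo_eq (hx : x ∈ pat P i) : G.Lo x = G.Loc i x hx :=
  le_antisymm (Loc_le G _ hx) (Loc_le G hx _)

theorem mem_Lo (hx : x ∈ pat P i) : f ∈ G.Lo x ↔
    ∃ a ∈ R.Ao G.y i, ∃ c ∈ R.Ao G.y i, ev (R.r c) x ≠ 0 ∧ f * c = a := by
  rw [Lo_eq G hx]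
  rfl

theorem Lo_spec (hf : f ∈ G.Lo x) : f ∈ R.O ∧ R.r f ∈ (lp x).O := Loc_spec G hf

theorem smul_mem_Lo {c : ℂ} (hc : c ∈ R.o) (hf : f ∈ G.Lo x) : c • f ∈ G.Lo x := by
  rw [Algebra.smul_def]
  exact mul_mem (Ao_le G _ (o_mem_Ao G _ hc)) hf

/-- the ring `Lk x` -/
def LK (x : Pts P) : Subalgebra ℂ E where
  carrier := G.Lk x
  mul_mem' := by
    rintro f g ⟨c, h1, h2⟩ ⟨d, h3, h4⟩
    exact ⟨c * d, mul_ne_zero h1 h3, by rw [← smul_mul_smul_comm]; exact mul_mem h2 h4⟩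
  add_mem' := by
    rintro f g ⟨c, h1, h2⟩ ⟨d, h3, h4⟩
    rcases R.val (c / d) with h | h
    · have := smul_mem_Lo G h h4
      rw [smul_smul, div_mul_cancel₀ _ h3] at this
      exact ⟨c, h1, by rw [smul_add]; exact add_mem h2 this⟩
    · have := smul_mem_Lo G h h2
      rw [smul_smul, inv_div, div_mul_cancel₀ _ h1] at this
      exact ⟨d, h3, by rw [smul_add]; exact add_mem this h4⟩
  algebraMap_mem' c := by
    by_cases h : c = 0
    · exact ⟨1, one_ne_zero, by rw [h, map_zero, smul_zero]; exact zero_mem _⟩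
    · exact ⟨c⁻¹, inv_ne_zero h, by
        rw [Algebra.smul_def, ← map_mul, inv_mul_cancel₀ h, map_one]; exact one_mem _⟩


theorem LK_of_Lo (hf : f ∈ G.Lo x) : f ∈ LK G x := ⟨1, one_ne_zero, by rwa [one_smul]⟩

theorem A_le_LK (hx : x ∈ pat P i) : chart ℂ G.y i ≤ LK G x := by
  refine Algebra.adjoin_le ?_
  rintro _ ⟨j, rfl⟩
  exact LK_of_Lo G (Lo_eq G hx ▸ Ao_le G hx (y_mem_Ao G i j))

theorem den (hx : x ∈ pat P i) (hf : f ∈ LK G x) :
    ∃ c ∈ R.Ao G.y i, ev (R.r c) x ≠ 0 ∧ f * c ∈ chart ℂ G.y i := by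
  obtain ⟨d, h1, h2⟩ := hf
  obtain ⟨a, ha, c, hc, h0, h3⟩ := (mem_Lo G hx).1 h2
  refine ⟨c, hc, h0, ?_⟩
  have := Subalgebra.smul_mem _ (Ao_le_chart G ha) d⁻¹
  rwa [← h3, smul_mul_assoc, smul_smul, inv_mul_cancel₀ h1, one_smul] at this

theorem inv_mem_LK (hx : x ∈ pat P i) {c : E} (hc : c ∈ R.Ao G.y i) (h0 : ev (R.r c) x ≠ 0) :
    c⁻¹ ∈ LK G x := LK_of_Lo G (Lo_eq G hx ▸ Loc_inv G (Ao_le G hx hc) h0)

theorem mem_Lo_of (hf : f ∈ LK G x) (h : f ∈ R.O) : f ∈ G.Lo x := by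
  obtain ⟨i, hx⟩ := exists_pat x
  obtain ⟨c, hc, h0, h1⟩ := den G hx hf
  exact (mem_Lo G hx).2 ⟨_, G.sat i _ h1 (mul_mem h (Pre.Ao_spec hc).1), c, hc, h0, rfl⟩

theorem opn (hf : f ∈ LK G x) : ∀ᶠ x' in 𝓝 x, f ∈ LK G x' := by
  obtain ⟨i, hx⟩ := exists_pat x
  obtain ⟨c, hc, h0, h1⟩ := den G hx hf
  filter_upwards [(isOpen_pat P i).mem_nhds hx, (isOpen_ev_ne (R.r c)).mem_nhds h0] with x' h2 h3
  have := mul_mem (A_le_LK G h2 h1) (inv_mem_LK G h2 hc h3)
  rwa [mul_inv_cancel_right₀ (Red.ne_zero (ne_of_ev h0))] at this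

/-- common denominators -/
theorem exists_den (hx : x ∈ pat P i) {n : ℕ} {ρ : Fin n → E} (h : ∀ j, ρ j ∈ LK G x) :
    ∃ c : E, c ≠ 0 ∧ c⁻¹ ∈ LK G x ∧ ∀ j, ρ j * c ∈ chart ℂ G.y i := by
  classical
  choose c h1 h2 h3 using fun j => den G hx (h j)
  refine ⟨∏ j, c j, Finset.prod_ne_zero_iff.2 fun j _ => Red.ne_zero (ne_of_ev (h2 j)), ?_,
    fun j => ?_⟩
  · rw [← Finset.prod_inv_distrib]
    exact prod_mem fun j _ => inv_mem_LK G hx (h1 j) (h2 j)
  · rw [← Finset.mul_prod_erase _ _ (Finset.mem_univ j), ← mul_assoc]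
    exact mul_mem (h3 j) (prod_mem fun l _ => Ao_le_chart G (h1 l))

end Crest.Agent.X262.Sp78
end
end

-- ▼ part X262/Sp78/Main
section

/-!
# Row 262, G4 / SP (helper78), part 3: specialisation of line bundles

* `Gn G h a m σ` : the sections `σ` of `a + m H` generate along the special fibre; `exists_gn`;
* `Gn.h0_eq`     : comparison of the numbers of sections;
* `sp : SpOut G h`, `sp0 : Sp0 G h`.
-/

set_option autoImplicit false

open Filter Topology Module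

noncomputable section

namespace Crest.Agent.X262.Sp78

open Crest.Agent.X277 Crest.Agent.X277.Lef Crest.Agent.X277.AN.G1 Crest.Agent.X277.BD
open Crest.Agent.X277.BD.Br
open Crest.Agent.X262.Alg44
open Crest.Agent.X262.Surf (h0)

variable {F E : Type} [Field F] [Algebra ℂ F] [Field E] [Algebra ℂ E] {R : Red F E}
  {P : PModel ℂ F} (G : Pre R P) (h : G.Sm) {a : BD ℂ E} {m n : ℕ} {σ : Fin (n + 1) → E}

/-- sections of `a + m H` which generate along the special fibre -/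
structure Gn (a : BD ℂ E) (m : ℕ) {n : ℕ} (σ : Fin (n + 1) → E) : Prop where
  mem : ∀ l, σ l ∈ R.O
  ne : ∀ l, R.r (σ l) ≠ 0
  sec : ∀ l, σ l ∈ (a + m • oP (G.gen h)).Sec
  gen : ∀ x : Pts P, ∃ i k, x ∈ pat P i ∧ ∀ d : ℕ, ∀ τ ∈ (a + (m + d) • oP (G.gen h)).Sec,
    τ / (σ k * G.y i ^ d) ∈ LK G x

theorem exists_gn (hp : G.Pic) (ha : a ∈ On (G.gen h)) (hf : Free a) :
    ∃ (m n : ℕ) (σ : Fin (n + 1) → E), Gn G h a m σ := by
  classical
  obtain ⟨n, f, h1, h2⟩ := exists_dual ha hf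
  choose g h2 h3 using h2
  have h4 : ∀ x : Pts P, ∃ (i : Fin (P.N + 1)) (φ : E) (m0 : ℕ), φ ≠ 0 ∧
      (∀ m, m0 ≤ m → φ * G.y i ^ m ∈ (a + m • oP (G.gen h)).Sec) ∧
      {x' | x' ∈ pat P i ∧ ∀ j, f j / φ ∈ LK G x'} ∈ 𝓝 x := by
    intro x
    obtain ⟨i, hx⟩ := exists_pat x
    obtain ⟨φ, h0, h5, h6⟩ := hp x n n f (g i) (fun j l => if j = l then 1 else 0)
      (fun j l => A_le_LK G hx (by simpa using h3 i 0 (f j) (by simpa using h1 j) l))
      (fun j l => by
        split_ifs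
        · exact one_mem (LK G x)
        · exact zero_mem (LK G x)) (by simpa using h2 i)
    obtain ⟨c, h8, h9, h10⟩ := exists_den G hx h6
    choose N hN using fun j => mul_pow_mem (P := G.gen h) (i := i) (h10 j)
    refine ⟨i, φ * c, Finset.univ.sup N, mul_ne_zero h0 h8, fun m hm => ?_, ?_⟩
    · have e : φ * c * G.y i ^ m = ∑ j, f j * (φ * g i j * c * G.y i ^ m) := by
        rw [← mul_one (φ * c * G.y i ^ m), ← h2 i, Finset.mul_sum]
        exact Finset.sum_congr rfl fun j _ => by ring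
      rw [e]
      exact sum_mem fun j _ => mul_mem_Sec (h1 j)
        (hN j m ((Finset.le_sup (Finset.mem_univ j)).trans hm))
    · refine Eventually.and ((isOpen_pat P i).mem_nhds hx) (eventually_all.2 fun j => opn G ?_)
      rw [← div_div, div_eq_mul_inv]
      exact mul_mem (s := LK G x) (h5 j) h9
  choose i φ m0 h4 h5 h6 using h4
  obtain ⟨t, ht⟩ := CompactSpace.elim_nhds_subcover _ h6
  have h7 : ∀ x : Pts P, ∃ p ∈ t, x ∈ pat P (i p) ∧ ∀ j, f j / φ p ∈ LK G x := fun x => by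
    obtain ⟨p, h7, h8⟩ := Set.mem_iUnion₂.1 (ht.ge (Set.mem_univ x))
    exact ⟨p, h7, h8⟩
  obtain ⟨k, hk⟩ : ∃ k, t.card = k + 1 := Nat.exists_eq_succ_of_ne_zero
    (Finset.card_ne_zero.2 ((h7 (Classical.arbitrary _)).imp fun _ h => h.1))
  let e : Fin (k + 1) ≃ t := (t.equivFinOfCardEq hk).symm
  choose c h8 h9 h10 using fun p =>
    nrm R (mul_ne_zero (h4 p) (pow_ne_zero (t.sup m0) (G.y_ne (i p))))
  refine ⟨t.sup m0, k, fun l => c (e l) • (φ (e l) * G.y (i (e l)) ^ t.sup m0), fun l => h9 _,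
    fun l => h10 _, fun l => Submodule.smul_mem _ _ (h5 _ _ (Finset.le_sup (e l).2)), fun x => ?_⟩
  obtain ⟨p, hp, hx, h11⟩ := h7 x
  refine ⟨i p, e.symm ⟨p, hp⟩, hx, fun d τ hτ => ?_⟩
  have e1 : τ / (c p • (φ p * G.y (i p) ^ t.sup m0) * G.y (i p) ^ d) = (c p)⁻¹ •
      ∑ j, τ / G.y (i p) ^ (t.sup m0 + d) * g (i p) j * (f j / φ p) := by
    have e2 : ∑ j, τ / G.y (i p) ^ (t.sup m0 + d) * g (i p) j * (f j / φ p) =
        τ / G.y (i p) ^ (t.sup m0 + d) / φ p * ∑ j, f j * g (i p) j := by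
      rw [Finset.mul_sum]
      exact Finset.sum_congr rfl fun j _ => by ring
    rw [e2, h2, Algebra.smul_def, Algebra.smul_def, map_inv₀, pow_add]
    ring
  simp only [Equiv.apply_symm_apply]
  rw [e1]
  exact Subalgebra.smul_mem _
    (sum_mem fun j _ => mul_mem (A_le_LK G hx (h3 (i p) _ τ hτ j)) (h11 j)) _

variable {G h}

namespace Gn

variable (H : Gn G h a m σ)
include H

theorem red (x : Pts P) : ∃ i k, x ∈ pat P i ∧ (∀ l, σ l / σ k ∈ G.Lo x) ∧
    ∀ d : ℕ, ∀ τ ∈ (a + (m + d) • oP (G.gen h)).Sec, τ ∈ R.O →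
      R.r τ / (R.r (σ k) * P.y i ^ d) ∈ (lp x).O := by
  obtain ⟨i, k, hx, h1⟩ := H.gen x
  refine ⟨i, k, hx, fun l => mem_Lo_of G (by simpa using h1 0 _ (H.sec l))
    (Red.div_mem (H.mem l) (H.mem k) (H.ne k)), fun d τ hτ h2 => ?_⟩
  have h3 : R.r (σ k * G.y i ^ d) = R.r (σ k) * P.y i ^ d := by
    rw [R.r_mul (H.mem k) (pow_mem (G.y_mem i) d), r_pow R (G.y_mem i), G.y_r]
  have h4 : R.r (σ k * G.y i ^ d) ≠ 0 := h3 ▸ mul_ne_zero (H.ne k) (pow_ne_zero _ (P.y_ne i))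
  have h5 := mul_mem (H.mem k) (pow_mem (G.y_mem i) d)
  rw [← h3, ← Red.r_div h2 h5 h4]
  exact (Lo_spec G (mem_Lo_of G (h1 d τ hτ) (Red.div_mem h2 h5 h4))).2

theorem at_red {x : Pts P} {k : Fin (n + 1)} (hk : ∀ l, σ l / σ k ∈ G.Lo x) :
    At (mxf ℂ fun j => R.r (σ j)) x (R.r (σ k)) :=
  at_mxf (s := fun j => R.r (σ j)) (H.ne k) fun l => by
    rw [← Red.r_div (H.mem l) (H.mem k) (H.ne k)]
    exact (Lo_spec G (hk l)).2

theorem on : (mxf ℂ fun j => R.r (σ j)) ∈ On P := fun x => by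
  obtain ⟨_, k, -, h1, -⟩ := H.red x
  exact ⟨_, H.at_red h1⟩

theorem red_mem {d : ℕ} {τ : E} (hτ : τ ∈ (a + (m + d) • oP (G.gen h)).Sec) (h2 : τ ∈ R.O) :
    R.r τ ∈ ((mxf ℂ fun j => R.r (σ j)) + d • oP P).Sec := mem_Sec_of fun x => by
  obtain ⟨i, k, hx, h1, h3⟩ := H.red x
  exact ⟨_, (H.at_red h1).add ((at_y hx).nsmul d), h3 d τ hτ h2⟩

theorem mul_mem_span (l : Fin (n + 1)) {d : ℕ} {p : MvPolynomial (Fin (P.N + 1)) ℂ}
    (hp : p.IsHomogeneous d) : R.r (σ l) * MvPolynomial.aeval P.y p ∈ Submodule.span ℂ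
      (R.r '' {u | u ∈ (a + (m + d) • oP (G.gen h)).Sec ∧ u ∈ R.O}) := by
  rw [MvPolynomial.aeval_def, MvPolynomial.eval₂_eq', Finset.mul_sum]
  refine sum_mem fun α hα => ?_
  rw [mul_left_comm, ← Algebra.smul_def]
  have h1 : ∀ i, G.y i ^ α i ∈ R.O := fun i => pow_mem (G.y_mem i) _
  refine Submodule.smul_mem _ _ (Submodule.subset_span ⟨σ l * ∏ i, G.y i ^ α i, ⟨?_,
    mul_mem (H.mem l) (prod_mem fun i _ => h1 i)⟩, ?_⟩)
  · have h2 : ∑ i, α i = d := by
      rw [← Finsupp.degree_eq_sum, Finsupp.degree_eq_weight_one]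
      exact hp (MvPolynomial.mem_support_iff.1 hα)
    have h3 := prod_mem_Sec Finset.univ (a := fun i => α i • oP (G.gen h))
      (g := fun i => G.y i ^ α i) fun i _ => pow_mem_Sec (y_mem_Sec (P := G.gen h) i) _
    rw [← Finset.sum_smul, h2] at h3
    rw [add_smul, ← add_assoc]
    exact mul_mem_Sec (H.sec l) h3
  · rw [R.r_mul (H.mem l) (prod_mem fun i _ => h1 i), r_prod R _ h1]
    simp only [r_pow R (G.y_mem _), G.y_r]

theorem h0_eq [Algebra.EssFiniteType ℂ F] [Algebra.EssFiniteType ℂ E] (hG : GenSecStmt) :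
    ∀ᶠ d : ℕ in atTop,
      h0 (a + (m + d) • oP (G.gen h)) = h0 ((mxf ℂ fun j => R.r (σ j)) + d • oP P) := by
  obtain ⟨M, hM⟩ := hG F P _ (fun j => R.r (σ j)) ⟨0, H.ne 0⟩ H.on
  filter_upwards [eventually_ge_atTop M] with d hd
  unfold h0
  congr 1
  refine le_antisymm (finrank_le R fun τ h1 h2 => H.red_mem h1 h2) (le_finrank R fun f hf => ?_)
  obtain ⟨p, h1, rfl⟩ := hM d hd f hf
  exact sum_mem fun l _ => H.mul_mem_span l (h1 l)

end Gn

variable (G h) [Algebra.EssFiniteType ℂ F] [Algebra.EssFiniteType ℂ E]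

/-- **specialisation of line bundles** -/
theorem sp (hG : GenSecStmt) (hp : G.Pic) : SpOut G h := by
  intro a ha
  obtain ⟨b, hb, N, hf, rfl⟩ := exists_sub_On ha
  obtain ⟨m, n, σ, H⟩ := exists_gn G h hp hb hf
  refine ⟨N + m, n, σ, H.mem, H.ne, fun x => ?_, H.on, (H.h0_eq hG).mono fun d hd => ?_⟩
  · obtain ⟨_, k, -, h1, -⟩ := H.red x
    exact ⟨k, h1⟩
  · rw [← hd, add_assoc N, add_smul N, ← add_assoc, sub_add_cancel]

/-- the Hilbert functions of the two fibres agree -/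
theorem sp0 (hG : GenSecStmt) : Sp0 G h := by
  have H : Gn G h 0 0 fun _ : Fin (0 + 1) => (1 : E) :=
    ⟨fun _ => one_mem _, fun _ => R.r_one ▸ one_ne_zero, fun _ => by simpa using one_mem_Sec,
      fun x => by
        obtain ⟨i, hx⟩ := exists_pat x
        refine ⟨i, 0, hx, fun d τ hτ => A_le_LK G hx ?_⟩
        rw [zero_add, zero_add] at hτ
        rw [one_mul]
        exact (mem_A_iff (P := G.gen h)).2 fun x' hx' => ((at_y hx').nsmul d).div_mem hτ⟩
  have e : (0 : BD ℂ F) = mxf ℂ fun _ : Fin (0 + 1) => R.r 1 :=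
    eq_mxf (fun _ => R.r_one ▸ one_mem_Sec) fun V => ⟨0, by simp [R.r_one]⟩
  refine (H.h0_eq hG).mono fun d hd => ?_
  rwa [← e, zero_add, zero_add, zero_add] at hd

end Crest.Agent.X262.Sp78
end
end

-- ▼ part X262/Sp71/Main
section

/-!
# Row 262, G4 / SP (helper71): the generic fibre is a K3 surface of Picard number one

* `can_of`   : Riemann-Roch on both fibres and duality give the trivial canonical class;
* `num_of`   : the numbers of a line bundle and of its specialisation agree;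
* `k3_of`    : the conclusion of `Alg44.K3Stmt` from `SpOut` and `Sp0`;
* `SpStmt`, `K3Stmt2`, `k3Stmt2_of`, `k3Stmt_of`.
-/

set_option autoImplicit false

open Filter

noncomputable section

namespace Crest.Agent.X262.Sp71

open Crest.Agent.X277 Crest.Agent.X277.Lef Crest.Agent.X277.AN.G1 Crest.Agent.X277.BD
open Crest.Agent.X277.BD.Br (On oP kP oP_mem kP_mem pr_mem free_oP)
open Crest.Agent.X262.Alg44 Crest.Agent.X262.Sp78
open Crest.Agent.X262.Top (K3 Reg1)
open Crest.Agent.X262.Surf (h0 rr B2 Chi RRStmt SerStmt)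

/-- a quadratic polynomial which vanishes for large arguments -/
theorem quad_zero {A B C : ℤ} (h : ∀ᶠ d : ℕ in atTop, A + B * d + C * d ^ 2 = 0) :
    A = 0 ∧ B = 0 ∧ C = 0 := by
  obtain ⟨N, hN⟩ := eventually_atTop.1 h
  have h0 := hN N le_rfl
  have h1 := hN (N + 1) (by omega)
  have h2 := hN (N + 2) (by omega)
  push_cast at h1 h2
  have hC : C = 0 := by linarith [show 2 * C = 0 by linear_combination h0 - 2 * h1 + h2]
  have hB : B = 0 := by
    rw [hC] at h0 h1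
    linear_combination h1 - h0
  rw [hB, hC] at h0
  exact ⟨by simpa using h0, hB, hC⟩

section One

variable {F : Type} [Field F] [Algebra ℂ F]

theorem h0_zero_le : h0 (0 : BD ℂ F) ≤ 1 := by
  have h1 : (0 : BD ℂ F).Sec ≤ Submodule.span ℂ {1} := fun x hx => by
    have h2 : IsIntegral (⊥ : Subalgebra ℂ F) x := Cns.isIntegral_of_val fun V hV =>
      RZ.le_one_iff.1 (hx ⟨V, Cns.KV.of_le hV⟩)
    obtain ⟨c, rfl⟩ := (IsAlgClosed.algebraMap_bijective_of_isIntegral (k := ℂ)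
      (K := integralClosure ℂ F)).2 ⟨x, isIntegral_trans (R := ℂ) x h2⟩ |>.imp
        fun c hc => congrArg Subtype.val hc
    exact Submodule.mem_span_singleton.2 ⟨c, (Algebra.algebraMap_eq_smul_one c).symm⟩
  have h2 := (Submodule.finrank_mono h1).trans (finrank_span_singleton (one_ne_zero' F)).le
  exact Int.ofNat_le.2 h2

variable [Algebra.EssFiniteType ℂ F] {P : PModel ℂ F} {a : BD ℂ F}

theorem oP_pos (P : PModel ℂ F) (b : B2 F) : 0 < bnum [oP P, oP P] :=
  bnum_pos (Hor83.dim_two b).symm (by simpa using ⟨free_oP.nef, (Hor83.isMod_oP P).big⟩)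

/-- an effective class of degree zero is trivial -/
theorem lin_zero (b : B2 F) (ha : a ∈ On P) (he : Eff a) (h : bnum [a, oP P] = 0) : Lin a 0 := by
  obtain ⟨g, hg, h0⟩ := he
  have h1 : 0 ≤ a - pr ℂ g := sub_nonneg.2 ((pr_le_iff h0).2 hg)
  refine ⟨g, h0, ?_⟩
  rw [zero_add, ← sub_eq_zero]
  refine Geo.eq_of_od (Hor83.isMod_oP P) (Hor83.car_oP (sub_mem ha (pr_mem g))) Mod.Car.zero
    fun V hV => ?_
  have h2 := Geo.od_mul_le h1 (l := [oP P]) (by simpa using free_oP.nef) hV.dvs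
  have h3 : 0 < Geo.dg V [oP P] := Geo.dg_pos (d := 1) (Hor83.isMod_oP P) hV (Hor83.dim_two b)
  rw [bnum_sub, h, bnum_pr, sub_zero] at h2
  rw [map_zero]
  exact le_antisymm (nonpos_of_mul_nonpos_left h2 h3) (Geo.od_nonneg h1)

theorem rr_tw (b : B2 F) (c : ℤ) (a : BD ℂ F) (d : ℕ) : rr P b c (a + d • oP P) =
    2 * c + bnum [a, a] - bnum [kP P b, a] + (2 * bnum [a, oP P] - bnum [kP P b, oP P]) * d +
      bnum [oP P, oP P] * d ^ 2 := by
  rw [rr, bnum_sub2, bnum_swap _ (kP P b), bnum_add, bnum_add2, bnum_add2, bnum_add2, bnum_nsmul,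
    bnum_nsmul, bnum_nsmul2, bnum_nsmul2, bnum_nsmul2, bnum_swap (oP P) a]
  ring

theorem k_zero {b : B2 F} (h : Lin (kP P b) 0) (a : BD ℂ F) : bnum [kP P b, a] = 0 := by
  rw [h.bnum_eq, bnum_zero]

/-- a surface on which all classes are proportional -/
theorem exists_gen (b : B2 F)
    (q1 : ∀ a ∈ On P, bnum [a, a] * bnum [oP P, oP P] = bnum [a, oP P] ^ 2) :
    ∃ l ∈ On P, 0 < bnum [l, oP P] ∧ bnum [l, oP P] ∣ bnum [oP P, oP P] ∧
      ∀ a ∈ On P, ∃ c : ℤ, ∀ a' ∈ On P, bnum [a - c • l, a'] = 0 := by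
  have hH := oP_pos P b
  obtain ⟨g, hg⟩ := Int.subgroup_cyclic ((On P).map (bnumL [oP P]))
  have hm : ∀ z : ℤ, z ∈ (On P).map (bnumL [oP P]) ↔ g ∣ z := fun z => by
    rw [hg, AddSubgroup.mem_closure_singleton]
    exact ⟨fun ⟨c, h⟩ => ⟨c, by rw [← h, smul_eq_mul, mul_comm]⟩,
      fun ⟨c, h⟩ => ⟨c, by rw [h, smul_eq_mul, mul_comm]⟩⟩
  obtain ⟨l, hl1, hl2⟩ := (hm |g|).2 ((dvd_abs g g).2 dvd_rfl)
  replace hl2 : bnum [l, oP P] = |g| := hl2
  have h1 : g ∣ bnum [oP P, oP P] := (hm _).1 ⟨oP P, oP_mem, rfl⟩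
  have hg0 : 0 < |g| := abs_pos.2 fun h => hH.ne' (by simpa [h] using h1)
  refine ⟨l, hl1, hl2 ▸ hg0, hl2 ▸ (abs_dvd g _).2 h1, fun a ha => ?_⟩
  obtain ⟨c, hc⟩ := (abs_dvd g _).2 ((hm _).1 ⟨a, ha, rfl⟩)
  replace hc : bnum [a, oP P] = |g| * c := hc
  have h2 : bnum [a - c • l, oP P] = 0 := by rw [bnum_sub, bnum_zsmul, hc, hl2, mul_comm, sub_self]
  have h3 := q1 _ (sub_mem ha (AddSubgroup.zsmul_mem _ hl1 c))
  rw [h2, zero_pow two_ne_zero, mul_eq_zero] at h3
  exact ⟨c, fun a' _ => eq_case0 (Λ := []) (by simp) free_oP.nef hH h2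
    (h3.resolve_right hH.ne') a'⟩

end One

section Two

variable {F E : Type} [Field F] [Algebra ℂ F] [Algebra.EssFiniteType ℂ F] [Field E] [Algebra ℂ E]
  [Algebra.EssFiniteType ℂ E] {P : PModel ℂ F} {Q : PModel ℂ E} {b : B2 F} {b' : B2 E} {c : ℤ}

/-- the canonical class of the generic fibre -/
theorem can_of (hS : SerStmt) (hc : Chi P b 2) (hK : Lin (kP P b) 0) (hc' : Chi Q b' c)
    (h : ∀ᶠ d : ℕ in atTop, h0 (d • oP Q) = h0 (d • oP P)) :
    c = 2 ∧ bnum [oP Q, oP Q] = bnum [oP P, oP P] ∧ Lin (kP Q b') 0 := by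
  obtain ⟨h1, h2, h3⟩ := quad_zero (A := 2 * c - 4) (B := -bnum [kP Q b', oP Q])
    (C := bnum [oP Q, oP Q] - bnum [oP P, oP P]) (by
      filter_upwards [h, hc 0 (zero_mem _), hc' 0 (zero_mem _)] with d e1 e2 e3
      rw [rr_tw, zero_add] at e2 e3
      rw [k_zero hK, k_zero hK, bnum_zero, bnum_zero] at e2
      rw [bnum_zero, bnum_zero, bnum_swap (kP Q b') 0, bnum_zero] at e3
      linear_combination 2 * e1 + e2 - e3)
  refine ⟨by omega, by omega, lin_zero b' (kP_mem b') ?_ (by omega)⟩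
  have h4 := hS E Q b' c hc' 0 (zero_mem _)
  rw [rr, bnum_zero, sub_zero] at h4
  have h5 := h0_zero_le (F := E)
  rw [eff_iff_finrank]
  have h6 : 0 < h0 (kP Q b') := by omega
  exact Int.natCast_pos.1 h6

/-- the numbers of a class and of its specialisation -/
theorem num_of (hc : Chi P b c) (hK : Lin (kP P b) 0) (hc' : Chi Q b' c) (hK' : Lin (kP Q b') 0)
    (hH : bnum [oP Q, oP Q] = bnum [oP P, oP P]) {a : BD ℂ E} (ha : a ∈ On Q) {a₀ : BD ℂ F}
    (ha₀ : a₀ ∈ On P) {m : ℕ}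
    (h : ∀ᶠ d : ℕ in atTop, h0 (a + (m + d) • oP Q) = h0 (a₀ + d • oP P)) :
    bnum [a₀ - m • oP P, oP P] = bnum [a, oP Q] ∧
      bnum [a₀ - m • oP P, a₀ - m • oP P] = bnum [a, a] := by
  obtain ⟨h1, h2, -⟩ := quad_zero
    (A := bnum [a, a] + 2 * m * bnum [a, oP Q] + m ^ 2 * bnum [oP P, oP P] - bnum [a₀, a₀])
    (B := 2 * (bnum [a, oP Q] + m * bnum [oP P, oP P] - bnum [a₀, oP P])) (C := 0) (by
      filter_upwards [h, hc a₀ ha₀, (tendsto_add_atTop_nat m).eventually (hc' a ha)]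
        with d e1 e2 e3
      rw [add_comm d m] at e3
      rw [rr_tw] at e2 e3
      rw [k_zero hK, k_zero hK] at e2
      rw [k_zero hK', k_zero hK', hH] at e3
      push_cast at e3
      linear_combination 2 * e1 + e2 - e3)
  constructor
  · rw [bnum_sub, bnum_nsmul]
    linarith
  · rw [bnum_sub, bnum_sub2, bnum_sub2, bnum_nsmul, bnum_nsmul, bnum_nsmul2, bnum_nsmul2,
      bnum_swap (oP P) a₀]
    linear_combination -h1 + m * h2

variable {R : Red F E}

/-- **the generic fibre is a K3 surface of Picard number one and large degree** -/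
theorem k3_of2 (hR : RRStmt) (hS : SerStmt) (G : Pre R P) (b : B2 F) (h : G.Sm) (b' : B2 E) (D : ℕ)
    (hs : SpOut G h) (hs0 : Sp0 G h) (hr : G.Rig) (hc : Chi P b 2) (hK : Lin (kP P b) 0)
    (hi : Chi (G.gen h) b' 2 → Lin (kP (G.gen h) b') 0 → ∀ ω, Reg1 (G.gen h) ω → ω = 0)
    (hD : ∀ M ∈ On P, ∀ k : ℤ, (∀ a ∈ On P, bnum [oP P - k • M, a] = 0) → D ≤ bnum [M, M]) :
    ∃ d : ℕ, D ≤ d ∧ Nonempty (K3 E d) := by
  obtain ⟨c, hc'⟩ := hR E (G.gen h) b'
  obtain ⟨rfl, hH, hK'⟩ := can_of hS hc hK hc' hs0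
  have hp := oP_pos P b
  have key : ∀ a ∈ On (G.gen h), ∃ a₀ ∈ On P, bnum [a₀, oP P] = bnum [a, oP (G.gen h)] ∧
      bnum [a₀, a₀] = bnum [a, a] ∧ bnum [a₀, a₀] * bnum [oP P, oP P] = bnum [a₀, oP P] ^ 2 := by
    intro a ha
    obtain ⟨m, n, s, h1, h2, h3, h4, h5⟩ := hs a ha
    obtain ⟨h6, h7⟩ := num_of hc hK hc' hK' hH ha h4 h5
    refine ⟨_, sub_mem h4 (nsmul_mem oP_mem m), h6, h7, ?_⟩
    have h8 := hr n s h1 h2 h3
    rw [bnum_sub, bnum_sub, bnum_sub2, bnum_sub2, bnum_nsmul, bnum_nsmul, bnum_nsmul, bnum_nsmul2,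
      bnum_nsmul2, bnum_swap (oP P) (mxf ℂ _)]
    linear_combination h8
  obtain ⟨l, hl, h1, ⟨k, h2⟩, h3⟩ := exists_gen (P := G.gen h) b' fun a ha => by
    obtain ⟨a₀, -, e1, e2, e3⟩ := key a ha
    rw [hH, ← e1, ← e2, e3]
  obtain ⟨l₀, e0, e1, e2, e3⟩ := key l hl
  rw [hH, ← e1] at h2
  rw [← e1] at h1
  have e4 : bnum [l₀, l₀] * k = bnum [l₀, oP P] :=
    mul_left_cancel₀ h1.ne' (by rw [h2] at e3; linear_combination e3)
  have e5 : 0 < bnum [l₀, l₀] := (mul_pos_iff_of_pos_right hp).1 (e3 ▸ pow_pos h1 2)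
  have e6 := hD l₀ e0 k fun a _ => eq_case0 (Λ := []) (by simp) free_oP.nef hp
    (by rw [bnum_sub, bnum_zsmul, h2]; ring) (by
      rw [bnum_sub, bnum_sub2, bnum_sub2, bnum_zsmul, bnum_zsmul, bnum_zsmul2, bnum_zsmul2,
        bnum_swap (oP P) l₀, h2]
      linear_combination k * e4) a
  exact ⟨(bnum [l, l]).toNat, by omega,
    ⟨⟨G.gen h, b', hK', hi hc' hK', l, hl, by omega, e1 ▸ h1, h3⟩⟩⟩

theorem k3_of (hR : RRStmt) (hS : SerStmt) (G : Pre R P) (b : B2 F) (h : G.Sm) (b' : B2 E) (D : ℕ)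
    (hs : SpOut G h) (hs0 : Sp0 G h) (hr : G.Rig) (hc : Chi P b 2) (hK : Lin (kP P b) 0)
    (hi : ∀ ω, Reg1 (G.gen h) ω → ω = 0)
    (hD : ∀ M ∈ On P, ∀ k : ℤ, (∀ a ∈ On P, bnum [oP P - k • M, a] = 0) → D ≤ bnum [M, M]) :
    ∃ d : ℕ, D ≤ d ∧ Nonempty (K3 E d) :=
  k3_of2 hR hS G b h b' D hs hs0 hr hc hK (fun _ _ => hi) hD

end Two

/-- the specialisation of line bundles -/
def SpStmt : Prop := ∀ (F E : Type) [Field F] [Algebra ℂ F] [Algebra.EssFiniteType ℂ F] [Field E]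
  [Algebra ℂ E] [Algebra.EssFiniteType ℂ E] (R : Red F E) (P : PModel ℂ F) (G : Pre R P)
  (h : G.Sm), G.Pic → SpOut G h ∧ Sp0 G h



/-- `K3Stmt` from the specialisation of line bundles -/
theorem k3Stmt_of (hR : RRStmt) (hS : SerStmt) (hsp : SpStmt) : K3Stmt :=
  fun F E _ _ _ _ _ _ R P G b h b' D hp hr hc hK hi hD =>
    k3_of hR hS G b h b' D (hsp F E R P G h hp).1 (hsp F E R P G h hp).2 hr hc hK hi hD

end Crest.Agent.X262.Sp71
end
end

-- ▼ part X262/Ufd9/Reg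
section

/-!
# Row 262, G4 / UFD (helper9), part 1: a criterion for factoriality

* `aeval_sub_mem` : forms of degree `d` respect congruences modulo `M ^ 2`;
* `form_eq_zero`  : the parameters are analytically independent;
* `ufd_of_hom`    : a Noetherian local domain with residue field `k` whose maximal ideal is generated
  by `n` elements which expand to the variables of `k⟦X₁, …, Xₙ⟧` is factorial.
-/

set_option autoImplicit false

noncomputable section

namespace Crest.Agent.X262.Ufd9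

open IsLocalRing
open Crest.Agent.R183.Cohen Crest.Agent.R271.UFD243

section Form

variable {k S σ : Type*} [CommRing k] [CommRing S] [Algebra k S] {M : Ideal S}

/-- `a` and `b` have the same initial form of degree `d` -/
def Cg (M : Ideal S) (d : ℕ) (a b : S) : Prop := a ∈ M ^ d ∧ b ∈ M ^ d ∧ a - b ∈ M ^ (d + 1)

theorem Cg.mul {d e : ℕ} {a b a' b' : S} (h : Cg M d a b) (h' : Cg M e a' b') :
    Cg M (d + e) (a * a') (b * b') := by
  refine ⟨pow_add M d e ▸ Ideal.mul_mem_mul h.1 h'.1,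
    pow_add M d e ▸ Ideal.mul_mem_mul h.2.1 h'.2.1, ?_⟩
  rw [show a * a' - b * b' = (a - b) * a' + b * (a' - b') by ring]
  refine add_mem ?_ ?_
  · rw [show d + e + 1 = d + 1 + e by ring, pow_add]
    exact Ideal.mul_mem_mul h.2.2 h'.1
  · rw [add_assoc, pow_add]
    exact Ideal.mul_mem_mul h.2.1 h'.2.2

theorem Cg.rfl0 (a : S) : Cg M 0 a a := ⟨by simp, by simp, by simp⟩

theorem Cg.pow {a b : S} (h : Cg M 1 a b) (m : ℕ) : Cg M m (a ^ m) (b ^ m) := by
  induction m with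
  | zero => simpa using Cg.rfl0 (M := M) 1
  | succ m ih => rw [pow_succ, pow_succ]; exact ih.mul h

theorem Cg.prod {u w : σ → S} (h : ∀ i, Cg M 1 (u i) (w i)) (s : σ →₀ ℕ) :
    Cg M s.degree (s.prod fun i m => u i ^ m) (s.prod fun i m => w i ^ m) := by
  induction s using Finsupp.induction_linear with
  | zero => simpa using Cg.rfl0 (M := M) 1
  | add f g hf hg =>
    rw [map_add, Finsupp.prod_add_index' (by simp) (by simp [pow_add]),
      Finsupp.prod_add_index' (by simp) (by simp [pow_add])]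
    exact hf.mul hg
  | single i m => simpa using (h i).pow m

theorem aeval_sub_mem {u w : σ → S} (h : ∀ i, Cg M 1 (u i) (w i)) {d : ℕ} {q : MvPolynomial σ k}
    (hq : q.IsHomogeneous d) : MvPolynomial.aeval u q - MvPolynomial.aeval w q ∈ M ^ (d + 1) := by
  rw [q.as_sum, map_sum, map_sum, ← Finset.sum_sub_distrib]
  refine Ideal.sum_mem _ fun s hs => ?_
  have h1 : s.degree = d := by
    rw [Finsupp.degree_eq_weight_one]
    exact hq (MvPolynomial.mem_support_iff.1 hs)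
  rw [MvPolynomial.aeval_monomial, MvPolynomial.aeval_monomial, ← mul_sub, ← h1]
  exact Ideal.mul_mem_left _ _ (Cg.prod h s).2.2

end Form

section Ser

open MvPowerSeries

variable {k σ : Type*} [CommRing k]

/-- the ideal of the variables -/
abbrev vars (σ k : Type*) [CommRing k] : Ideal (MvPowerSeries σ k) :=
  Ideal.span (Set.range (X : σ → MvPowerSeries σ k))

theorem const_of_mem {f : MvPowerSeries σ k} (h : f ∈ vars σ k) : constantCoeff f = 0 := by
  have : vars σ k ≤ RingHom.ker (constantCoeff (σ := σ) (R := k)) := by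
    rw [Ideal.span_le]
    rintro _ ⟨i, rfl⟩
    simp
  exact this h

theorem le_order_of_mem {N : ℕ} {f : MvPowerSeries σ k} (h : f ∈ vars σ k ^ N) :
    (N : ℕ∞) ≤ f.order := by
  induction N generalizing f with
  | zero => simp
  | succ N ih =>
    rw [pow_succ] at h
    refine Submodule.mul_induction_on h (fun a ha b hb => ?_) fun a b ha hb => ?_
    · refine le_trans ?_ le_order_mul
      rw [Nat.cast_succ]
      exact add_le_add (ih ha) (one_le_order_iff_constCoeff_eq_zero.2 (const_of_mem hb))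
    · exact (le_min ha hb).trans min_order_le_add

theorem coeff_of_mem {N : ℕ} {f : MvPowerSeries σ k} (h : f ∈ vars σ k ^ N) {s : σ →₀ ℕ}
    (hs : s.degree < N) : coeff s f = 0 :=
  coeff_of_lt_order (lt_of_lt_of_le (by exact_mod_cast hs) (le_order_of_mem h))

theorem aeval_X (q : MvPolynomial σ k) :
    MvPolynomial.aeval (X : σ → MvPowerSeries σ k) q = (q : MvPowerSeries σ k) := by
  have : (MvPolynomial.aeval (X : σ → MvPowerSeries σ k) : MvPolynomial σ k →ₐ[k] _) =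
      MvPolynomial.coeToMvPowerSeries.algHom k := by
    ext i : 1
    simp
  rw [this]
  simp

/-- analytic independence of the parameters -/
theorem form_eq_zero {R : Type*} [CommRing R] [Algebra k R] {x : σ → R}
    (H : R →ₐ[k] MvPowerSeries σ k) (hH : ∀ i, H (x i) - X i ∈ vars σ k ^ 2) {d : ℕ}
    {q : MvPolynomial σ k} (hq : q.IsHomogeneous d)
    (h : MvPolynomial.aeval x q ∈ Ideal.span (Set.range x) ^ (d + 1)) : q = 0 := by
  have h0 : ∀ i, (X i : MvPowerSeries σ k) ∈ vars σ k := fun i => Ideal.subset_span ⟨i, rfl⟩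
  have h1 : ∀ i, H (x i) ∈ vars σ k := fun i => by
    have := add_mem (Ideal.pow_le_self two_ne_zero (hH i)) (h0 i)
    rwa [sub_add_cancel] at this
  have h2 : (Ideal.span (Set.range x)).map (H : R →+* MvPowerSeries σ k) ≤ vars σ k := by
    rw [Ideal.map_span, Ideal.span_le]
    rintro _ ⟨_, ⟨i, rfl⟩, rfl⟩
    exact h1 i
  have h3 : MvPolynomial.aeval (fun i => H (x i)) q ∈ vars σ k ^ (d + 1) := by
    have h4 := Ideal.mem_map_of_mem (H : R →+* MvPowerSeries σ k) h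
    rw [Ideal.map_pow] at h4
    rw [← MvPolynomial.comp_aeval_apply]
    exact Ideal.pow_right_mono h2 _ h4
  have h5 := sub_mem h3 (aeval_sub_mem (M := vars σ k) (u := fun i => H (x i)) (w := X)
    (fun i => ⟨by simpa using h1 i, by simpa using h0 i, hH i⟩) hq)
  rw [sub_sub_cancel, aeval_X] at h5
  ext s
  by_cases hs : s.degree = d
  · rw [← MvPolynomial.coeff_coe, coeff_of_mem h5 (by omega), MvPolynomial.coeff_zero]
  · rw [hq.coeff_eq_zero hs, MvPolynomial.coeff_zero]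

end Ser

open MvPowerSeries in
/-- **the criterion** -/
theorem ufd_of_hom {k R : Type*} [Field k] [Infinite k] [CommRing R] [IsDomain R] [IsLocalRing R]
    [IsNoetherianRing R] [Algebra k R] {n : ℕ} (x : Fin n → R)
    (hm : maximalIdeal R = Ideal.span (Set.range x))
    (hk : ∀ r : R, ∃ c : k, r - algebraMap k R c ∈ maximalIdeal R)
    (H : R →ₐ[k] MvPowerSeries (Fin n) k) (hH : ∀ i, H (x i) - X i ∈ vars (Fin n) k ^ 2) :
    UniqueFactorizationMonoid R := by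
  let S := AdicCompletion (maximalIdeal R) R
  have hJ : maximalIdeal S = (maximalIdeal R).map (algebraMap R S) :=
    AdicCompletion.maximalIdeal_eq_map
  have hJ' : maximalIdeal S = (Ideal.span (Set.range x)).map (algebraMap R S) :=
    hJ.trans (congrArg _ hm)
  have ht : ∀ i, algebraMap R S (x i) ∈ maximalIdeal S := fun i =>
    hJ' ▸ Ideal.mem_map_of_mem _ (Ideal.subset_span ⟨i, rfl⟩)
  let ψ := psEval (maximalIdeal S) ((algebraMap R S).comp (algebraMap k R))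
    (fun i => algebraMap R S (x i)) ht
  have hI : (vars (Fin n) k).map ψ = maximalIdeal S := by
    rw [hJ']
    simp only [Ideal.map_span, ← Set.range_comp]
    congr 2
    funext i
    exact psEval_X _ _ _ ht i
  have hs : Function.Surjective ψ := by
    have : IsHausdorff ((vars (Fin n) k).map ψ) S := hI ▸ inferInstance
    refine surjective_of_mk_map_comp_surjective (I := vars (Fin n) k) ψ fun y => ?_
    obtain ⟨y, rfl⟩ := Ideal.Quotient.mk_surjective y
    obtain ⟨r, hr⟩ := (AdicCompletion.residueField_map_bijective R).2 (residue S y)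
    obtain ⟨r, rfl⟩ := residue_surjective r
    obtain ⟨c, hc⟩ := hk r
    refine ⟨C c, ?_⟩
    rw [RingHom.comp_apply, Ideal.Quotient.eq, hI, psEval_C]
    have h1 : algebraMap R S r - y ∈ maximalIdeal S := by
      rw [← residue_eq_zero_iff, map_sub, ← hr, ResidueField.map_residue, sub_self]
    have h2 := Ideal.mem_map_of_mem (algebraMap R S) hc
    rw [← hJ, map_sub] at h2
    have h3 := sub_mem h1 h2
    rwa [sub_sub_sub_cancel_left] at h3
  have hff : Module.FaithfullyFlat R S := Module.FaithfullyFlat.of_flat_of_isLocalHom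
  have hi : Function.Injective ψ := by
    rw [injective_iff_map_eq_zero]
    intro f hf
    have key : ∀ N : ℕ, ∀ s : Fin n →₀ ℕ, s.degree < N → coeff s f = 0 := by
      intro N
      induction N with
      | zero => intro s hs; omega
      | succ N ih =>
        have h1 : (truncTotal (N + 1) f).IsHomogeneous N := by
          intro s hs
          suffices h : s.degree = N by rwa [Finsupp.degree_eq_weight_one] at h
          by_contra hne
          rcases lt_or_gt_of_ne hne with h | h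
          · exact hs (by rw [coeff_truncTotal _ (by omega), ih s h])
          · exact hs (coeff_truncTotal_eq_zero _ (by omega))
        have h2 := mk_psEval (maximalIdeal S) ((algebraMap R S).comp (algebraMap k R))
          (fun i => algebraMap R S (x i)) ht (N + 1) f
        rw [show psEval _ _ _ ht f = 0 from hf, map_zero, eq_comm,
          Ideal.Quotient.eq_zero_iff_mem, ← MvPolynomial.comp_eval₂Hom, RingHom.comp_apply, hJ',
          ← Ideal.map_pow, ← Ideal.mem_comap, Ideal.comap_map_eq_self_of_faithfullyFlat] at h2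
        have h3 := form_eq_zero H hH h1 h2
        intro s hs
        rw [← coeff_truncTotal _ hs, h3, MvPolynomial.coeff_zero]
    ext s
    exact key _ s (Nat.lt_succ_self _)
  let e := RingEquiv.ofBijective ψ ⟨hi, hs⟩
  have : IsDomain S := e.symm.toMulEquiv.isDomain _
  have := mvPowerSeries_ufd (k := k) n
  have : UniqueFactorizationMonoid S := e.toMulEquiv.uniqueFactorizationMonoid this
  exact ufd_of_flat_local R S

end Crest.Agent.X262.Ufd9
end
end

-- ▼ part X262/Ufd9/Main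
section

/-!
# Row 262, G4 / UFD (helper9), part 2: the local rings of the total space are factorial

* `exists_exp` : the formal expansion at a point of a smooth model;
* `ufd_ser`    : any dimension; `ufdStmt : Alg44.UfdStmt`.
-/

set_option autoImplicit false

open PowerSeries IsLocalRing
open scoped KaehlerDifferential

noncomputable section

namespace Crest.Agent.X262.Ufd9

open Crest.Agent.X277 Crest.Agent.X277.Lef Crest.Agent.X277.AN.G1
open Crest.Agent.R271.UFD243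
open Crest.Agent.X262.Mv99 (serR oR)

variable {F : Type} [Field F] [Algebra ℂ F] {P : PModel ℂ F} {n : ℕ}

/-- the formal expansion at a point -/
theorem exists_exp (b : Module.Basis (Fin n) F Ω[F⁄ℂ]) (x : Pts P) :
    ∃ (z : Fin n → oR x) (h : oR x →+* MvPowerSeries (Fin n) ℂ),
      (∀ i, h (z i) = MvPowerSeries.X i) ∧
      (∀ c : ℂ, h ⟨algebraMap ℂ F c, (lp x).O.algebraMap_mem c⟩ = MvPowerSeries.C c) ∧
      ∀ f ∈ oR x, ∃ c : Fin n → oR x, f = algebraMap ℂ F (ev f x) + ∑ l, (c l : F) * z l := by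
  obtain ⟨i, hi⟩ := exists_pat x
  obtain ⟨g, hv, w, hw⟩ := exists_etale b hi
  have hg := LP.ne_zero_of_ne hv
  let _ : Algebra (Localization.Away g) (lp x).O := (tauO (A_le hi) hv).toAlgebra
  have : (RingHom.ker (tauV (A_le hi) hv)).IsPrime := RingHom.ker_isPrime _
  have : IsLocalization.AtPrime (lp x).O (RingHom.ker (tauV (A_le hi) hv)) := by
    refine ⟨fun ⟨c, hc⟩ => (LP.isUnit_iff _).2 hc, fun ⟨f, hf⟩ => ?_, fun {a c} h => ⟨1, ?_⟩⟩
    · obtain ⟨a, ha, c, hc, h1, h2⟩ := (mem_lp_iff hi).1 hf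
      refine ⟨(algebraMap (P.A i) _ ⟨a, ha⟩, ⟨algebraMap (P.A i) _ ⟨c, hc⟩, fun h => h1 ?_⟩),
        Subtype.ext ?_⟩
      · exact (tauV_alg (A_le hi) hv ⟨c, hc⟩).symm.trans h
      · show f * tau g hg _ = tau g hg _
        rw [tau_alg, tau_alg]
        exact h2
    · rw [tau_injective g hg (congrArg Subtype.val h)]
  obtain ⟨h, h1, h2, -⟩ := exists_expansion_local (MvPolynomial.aeval w) hw (tauV (A_le hi) hv) _
    rfl (lp x).O
  have hc := crd_of_etale hg hw hi hv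
  have h3 : ∀ c : ℂ, h ⟨algebraMap ℂ F c, (lp x).O.algebraMap_mem c⟩ = MvPowerSeries.C c := by
    intro c
    rw [← h2]
    exact congrArg h (Subtype.ext ((tau g hg).commutes c).symm)
  refine ⟨fun l => ⟨tau g hg (w l) - algebraMap ℂ F ((lp x).v (tau g hg (w l))),
    sub_mem (hc.mem l) ((lp x).O.algebraMap_mem _)⟩, h, fun l => ?_, h3, fun f hf => ?_⟩
  · have h4 := h1 l
    rw [MvPolynomial.aeval_X] at h4
    have h5 := h.map_sub (algebraMap (Localization.Away g) (lp x).O (w l))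
      ⟨algebraMap ℂ F ((lp x).v (tau g hg (w l))), (lp x).O.algebraMap_mem _⟩
    rw [h4, h3] at h5
    exact h5.trans (add_sub_cancel_left _ _)
  · obtain ⟨c, h4, h5⟩ := hc.gen f hf
    exact ⟨fun l => ⟨c l, h4 l⟩, h5⟩

theorem const_symm {k : Type*} [CommRing k] (g : (MvPowerSeries (Fin n) k)⟦X⟧) :
    MvPowerSeries.constantCoeff ((MvPowerSeries.finSuccEquiv k n).symm g) =
      MvPowerSeries.constantCoeff (coeff 0 g) := by
  have := MvPowerSeries.coeff_coeff_finSuccEquiv ((MvPowerSeries.finSuccEquiv k n).symm g)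
    (k := 0) (x := 0)
  rw [AlgEquiv.apply_symm_apply, Finsupp.cons_zero_zero] at this
  exact this.symm

theorem symm_mem {k : Type*} [Field k] {g : (MvPowerSeries (Fin n) k)⟦X⟧} (h0 : coeff 0 g = 0)
    (h1 : MvPowerSeries.constantCoeff (coeff 1 g) = 0) :
    (MvPowerSeries.finSuccEquiv k n).symm g ∈ vars (Fin (n + 1)) k ^ 2 := by
  obtain ⟨w, rfl⟩ : (X : (MvPowerSeries (Fin n) k)⟦X⟧) ∣ g := X_dvd_iff.2 (by simpa using h0)
  rw [map_mul, pow_two]
  refine Ideal.mul_mem_mul ((mem_span_range_X_iff _).2 ?_) ((mem_span_range_X_iff _).2 ?_)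
  · rw [const_symm]
    simp
  · rw [const_symm]
    rwa [coeff_succ_X_mul] at h1

/-- **the local rings of the total space are factorial** -/
theorem ufd_ser (b : Module.Basis (Fin n) F Ω[F⁄ℂ]) (x : Pts P) (A : Subring F⟦X⟧)
    (hA : A ≤ serR (oR x)) [IsNoetherianRing A] (hX : X ∈ A)
    (hC : ∀ c : ℂ, C (algebraMap ℂ F c) ∈ A) (hs : ∀ f, X * f ∈ A → f ∈ A)
    (ho : ∀ a ∈ oR x, ∃ f ∈ A, constantCoeff f = a)
    (hu : ∀ f ∈ A, ev (constantCoeff f) x ≠ 0 → ∃ g ∈ A, f * g = 1) :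
    UniqueFactorizationMonoid A := by
  obtain ⟨z, h, h1, h2, h3⟩ := exists_exp b x
  have h0 : ∀ f : A, constantCoeff (f : F⟦X⟧) ∈ oR x := fun f => by simpa using hA f.2 0
  let ε : A →+* ℂ := ((lp x).hom : (lp x).O →+* ℂ).comp
    ((constantCoeff.comp A.subtype).codRestrict (oR x) h0)
  have hε : ∀ f : A, IsUnit f ↔ ε f ≠ 0 := fun f =>
    ⟨fun hf => (hf.map ε).ne_zero, fun hf => by
      obtain ⟨g, hg, h4⟩ := hu f f.2 hf
      exact IsUnit.of_mul_eq_one ⟨g, hg⟩ (Subtype.ext h4)⟩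
  have : IsLocalRing A := .of_isUnit_or_isUnit_one_sub_self fun a => by
    rw [hε, hε, map_sub, map_one]
    by_cases h4 : ε a = 0
    · exact Or.inr (by simp [h4])
    · exact Or.inl h4
  have hm : ∀ f : A, f ∈ maximalIdeal A ↔ ε f = 0 := fun f => by
    rw [mem_maximalIdeal, mem_nonunits_iff, hε, not_not]
  let κ : ℂ →+* A := ((C (R := F)).comp (algebraMap ℂ F)).codRestrict A hC
  let _ : Algebra ℂ A := κ.toAlgebra
  have hκ : ∀ c, ε (κ c) = c := fun c => by
    change (lp x).v (constantCoeff (C (algebraMap ℂ F c))) = c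
    rw [constantCoeff_C, (lp x).v_alg]
  let μ : (oR x)⟦X⟧ →+* F⟦X⟧ := map (oR x).subtype
  have hμ : Function.Injective μ := map_injective _ Subtype.val_injective
  have hr : A ≤ μ.range := fun f hf => ⟨mk fun i => ⟨coeff i f, hA hf i⟩, by
    ext i
    rw [coeff_map, coeff_mk]
    rfl⟩
  let e : (oR x)⟦X⟧ ≃+* μ.range := RingEquiv.ofBijective μ.rangeRestrict
    ⟨fun a c hac => hμ (congrArg Subtype.val hac), μ.rangeRestrict_surjective⟩
  let L : A →+* (oR x)⟦X⟧ := (e.symm : μ.range →+* (oR x)⟦X⟧).comp (Subring.inclusion hr)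
  have hL : ∀ (f : A) i, (coeff i (L f) : oR x) = ⟨coeff i (f : F⟦X⟧), hA f.2 i⟩ := fun f i => by
    have h4 : μ (L f) = f := congrArg Subtype.val (e.apply_symm_apply (Subring.inclusion hr f))
    exact Subtype.ext (by simp only [← h4, μ, coeff_map]; rfl)
  have hh : ∀ a : oR x, MvPowerSeries.constantCoeff (h a) = ev (a : F) x := fun a => by
    obtain ⟨c, hc⟩ := h3 a a.2
    have h4 : a = ⟨algebraMap ℂ F (ev (a : F) x), (lp x).O.algebraMap_mem _⟩ + ∑ l, c l * z l :=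
      Subtype.ext (by simpa using hc)
    conv_lhs => rw [h4, map_add, h2]
    simp [h1]
  let H : A →ₐ[ℂ] MvPowerSeries (Fin (n + 1)) ℂ :=
    { ((MvPowerSeries.finSuccEquiv ℂ n).symm : _ →+* _).comp ((map h).comp L) with
      commutes' := fun c => by
        change (MvPowerSeries.finSuccEquiv ℂ n).symm (map h (L (κ c))) = MvPowerSeries.C c
        rw [AlgEquiv.symm_apply_eq, MvPowerSeries.finSuccEquiv_C]
        ext i : 1
        rw [coeff_map, hL, coeff_C]
        split_ifs with hi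
        · rw [← h2]
          exact congrArg h (Subtype.ext (by subst hi; simp [κ]))
        · rw [← h.map_zero]
          exact congrArg h (Subtype.ext (by simp [κ, coeff_C, hi])) }
  choose y hy hy0 using fun l => ho (z l) (z l).2
  let t : A := ⟨X, hX⟩
  let u : Fin n → A := fun l => ⟨y l, hy l⟩ - κ (ev (coeff 1 (y l)) x) * t
  have hu0 : ∀ l, constantCoeff (u l : F⟦X⟧) = z l := fun l => by simp [u, t, hy0]
  refine ufd_of_hom (k := ℂ) (Fin.cons t u : Fin (n + 1) → A) (le_antisymm (fun f hf => ?_) ?_)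
    (fun r => ⟨ε r, (hm _).2 (by rw [map_sub, sub_eq_zero]; exact (hκ _).symm)⟩) H fun i => ?_
  · obtain ⟨c, hc⟩ := h3 _ (h0 f)
    rw [show ev (constantCoeff (f : F⟦X⟧)) x = 0 from (hm f).1 hf, map_zero, zero_add] at hc
    choose g hg hg0 using fun l => ho (c l) (c l).2
    obtain ⟨w, hw⟩ : (X : F⟦X⟧) ∣ (f - ∑ l, ⟨g l, hg l⟩ * u l : A) :=
      X_dvd_iff.2 (by simp [hu0, hg0, hc])
    have h4 : f = t * ⟨w, hs w (hw ▸ SetLike.coe_mem _)⟩ + ∑ l, ⟨g l, hg l⟩ * u l :=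
      sub_eq_iff_eq_add.1 (Subtype.ext hw)
    rw [h4]
    exact add_mem (Ideal.mul_mem_right _ _ (Ideal.subset_span ⟨0, rfl⟩))
      (Ideal.sum_mem _ fun l _ => Ideal.mul_mem_left _ _ (Ideal.subset_span ⟨l.succ, rfl⟩))
  · rw [Ideal.span_le]
    rintro _ ⟨i, rfl⟩
    refine (hm _).2 (Fin.cases ?_ (fun l => ?_) i)
    · change (lp x).v (constantCoeff X) = 0
      simp
    · change ev (constantCoeff (u l : F⟦X⟧)) x = 0
      rw [hu0, ← hh, h1, MvPowerSeries.constantCoeff_X]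
  · refine Fin.cases ?_ (fun l => ?_) i
    · change (MvPowerSeries.finSuccEquiv ℂ n).symm (map h (L t)) - _ ∈ _
      have h4 : L t = X := by
        ext j
        rw [hL]
        change coeff j (X : F⟦X⟧) = _
        rw [coeff_X, coeff_X]
        split_ifs <;> rfl
      rw [h4, map_X, ← MvPowerSeries.finSuccEquiv_X_zero, AlgEquiv.symm_apply_apply, sub_self]
      exact zero_mem _
    · change (MvPowerSeries.finSuccEquiv ℂ n).symm (map h (L (u l))) - _ ∈ _
      rw [← (MvPowerSeries.finSuccEquiv ℂ n).symm_apply_apply (MvPowerSeries.X l.succ), ← map_sub,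
        MvPowerSeries.finSuccEquiv_X_succ]
      refine symm_mem ?_ ?_
      · rw [map_sub, coeff_map, hL, coeff_zero_C, ← h1, sub_eq_zero]
        exact congrArg h (Subtype.ext (by simpa using hu0 l))
      · rw [map_sub, coeff_map, hL, coeff_succ_C, sub_zero, hh]
        have h4 : coeff 1 (u l : F⟦X⟧) = coeff 1 (y l) - algebraMap ℂ F (ev (coeff 1 (y l)) x) := by
          simp [u, t, κ]
        change (lp x).v (coeff 1 (u l : F⟦X⟧)) = 0
        rw [h4, LP.v_sub (hA (hy l) 1) ((lp x).O.algebraMap_mem _), (lp x).v_alg]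
        exact sub_self _

theorem ufdStmt : Alg44.UfdStmt := fun _ _ _ _ b x A hA _ hX hC hs ho hu =>
  ufd_ser b x A hA hX hC hs ho hu

end Crest.Agent.X262.Ufd9
end
end

-- ▼ part X262/Fam6/Gam
section

/-!
# Row 262, G4 / FAM (helper6), part 2: sections of the deformed polarisation, the formal family

* `GS D j`     : global sections of the `j`-th power; `GS.mul`, `GS.sat`, `GS.const`, `GS.div`;
* `exists_fam` : the formal family of an embedding by `q M`;
* `rigid`, `big`.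
-/

set_option autoImplicit false

open PowerSeries

noncomputable section

namespace Crest.Agent.X262.Fam6

open Crest.Agent.X277 Crest.Agent.X277.Lef Crest.Agent.X277.AN.G1 Crest.Agent.X277.BD
open Crest.Agent.X277.BD.Br
open Crest.Agent.X262.Mv99 Crest.Agent.X262.Alg44
open Crest.Agent.X262.Top (Hyp)

variable {F : Type} [Field F] [Algebra ℂ F] {Γ : MvPolynomial (Fin 4) ℂ} {S : Hyp 3 Γ F}
  {M : BD ℂ F} {D : Dfm S M} {i j : ℕ} {s s' : F⟦X⟧}

theorem mul_nS {P : PModel ℂ F} {x : Pts P} {a a' : BD ℂ F} {c c' : F⟦X⟧} (h : c ∈ ser (nS a x))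
    (h' : c' ∈ ser (nS a' x)) : c * c' ∈ ser (nS (a + a') x) :=
  mul_mem_ser (fun _ h _ h' V hV => by
    rw [map_mul, val_add]; exact mul_le_mul' (h V hV) (h' V hV)) h h'

variable (D) in
/-- global sections of the `j`-th power of the deformed polarisation -/
def GS (j : ℕ) : Submodule ℂ⟦X⟧ F⟦X⟧ where
  carrier := {s | ∀ a, ∀ x ∈ U S a, ∃ c ∈ ser (nS (j • M) x), s = (D.Φ a).u ^ j * (D.Φ a).ψ c}
  add_mem' h h' a x hx := by
    obtain ⟨c, hc, rfl⟩ := h a x hx
    obtain ⟨c', hc', rfl⟩ := h' a x hx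
    exact ⟨c + c', add_mem hc hc', by rw [map_add, mul_add]⟩
  zero_mem' a x _ := ⟨0, zero_mem _, by simp⟩
  smul_mem' g s h a x hx := by
    obtain ⟨c, hc, rfl⟩ := h a x hx
    refine ⟨map (algebraMap ℂ F) g * c, zero_add (j • M) ▸ mul_nS (fun n V _ => ?_) hc, ?_⟩
    · rw [coeff_map]
      exact V.v_alg_le _
    · rw [smul_eq, map_mul, Mv.ψ_map, mul_left_comm]

theorem GS.mul (h : s ∈ GS D i) (h' : s' ∈ GS D j) : s * s' ∈ GS D (i + j) := fun a x hx => by
  obtain ⟨c, hc, rfl⟩ := h a x hx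
  obtain ⟨c', hc', rfl⟩ := h' a x hx
  exact ⟨c * c', add_nsmul M i j ▸ mul_nS hc hc', by rw [map_mul, pow_add]; ring⟩

theorem GS.pow (h : s ∈ GS D 1) (j : ℕ) : s ^ j ∈ GS D j := by
  induction j with
  | zero => exact fun a x _ => ⟨C 1, C_mem_ser fun V _ => by simp, by simp⟩
  | succ j ih => exact pow_succ s j ▸ GS.mul ih h

theorem GS.sat (h : X * s ∈ GS D j) : s ∈ GS D j := fun a x hx => by
  obtain ⟨c, hc, h1⟩ := h a x hx
  obtain ⟨c', hc', h2⟩ := (Lift8.uni_act ((D.Φ a).pow j)).sat (n := 1) (f := s)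
    ⟨c, hc, by rw [pow_one, h1]; rfl⟩
  exact ⟨c', hc', h2.symm⟩

theorem const_act (m : Mv ℂ F) (c : F⟦X⟧) : constantCoeff (m.u ^ j * m.ψ c) = constantCoeff c := by
  rw [map_mul, map_pow, m.u0, m.const, one_pow, one_mul]

theorem GS.const (hΓ : Qt Γ) (h : s ∈ GS D j) : constantCoeff s ∈ (j • M).Sec := fun V => by
  obtain ⟨x, hx⟩ := exists_ov' (P := S.P) V
  obtain ⟨a, ha⟩ := exists_U hΓ x
  obtain ⟨c, hc, rfl⟩ := h a x ha
  exact const_act _ c ▸ const_mem hc V hx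

theorem GS.div (h : s ∈ GS D j) (h' : s' ∈ GS D j) {a : Fin 3} {x : Pts S.P} (hx : x ∈ U S a)
    (hg : At (j • M) x (constantCoeff s')) : ∃ g ∈ serR (oR x), s = s' * (D.Φ a).ψ g := by
  obtain ⟨c, hc, rfl⟩ := h a x hx
  obtain ⟨c', hc', rfl⟩ := h' a x hx
  rw [const_act] at hg
  obtain ⟨v, hv, rfl⟩ := (mem_ser_prin hg.ne fun _ => mem_nS_iff hg).1 hc
  obtain ⟨v', hv', h1⟩ := (mem_ser_prin hg.ne fun _ => mem_nS_iff hg).1 hc'
  have h2 := congrArg constantCoeff h1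
  rw [map_mul, constantCoeff_C, left_eq_mul₀ hg.ne] at h2
  obtain ⟨g, h3, h4⟩ := exists_inv_serR hv' (one_mem _) (by rw [h2, one_mul])
  refine ⟨g * v, mul_mem h3 hv, ?_⟩
  rw [mul_assoc, ← map_mul]
  congr 2
  conv_rhs => rw [h1, mul_assoc, ← mul_assoc v', h4, one_mul]

variable (D) in
/-- the sections of `j M` extend -/
def Ext (j : ℕ) : Prop := ∀ s ∈ (j • M).Sec, ∃ r ∈ GS D j, constantCoeff r = s

/-- the module of sections is finitely generated -/
theorem Ext.exists_gen [Algebra.EssFiniteType ℂ F] (hΓ : Qt Γ) (h : Ext D j) :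
    ∃ (n : ℕ) (r : Fin n → F⟦X⟧), (∀ k, r k ∈ GS D j) ∧
      ∀ s ∈ GS D j, ∃ c : Fin n → ℂ⟦X⟧, s = ∑ k, c k • r k := by
  let b := Module.finBasis ℂ (j • M).Sec
  choose r h1 h2 using fun k => h _ (b k).2
  refine ⟨_, r, h1, fun s => mem_span_adic (fun _ => GS.sat) h1 fun f hf => ?_⟩
  have h3 := congrArg Subtype.val (b.sum_repr ⟨_, GS.const hΓ hf⟩)
  rw [AddSubmonoidClass.coe_finsetSum] at h3
  rw [← show _ = constantCoeff f from h3]
  exact sum_mem fun k _ => Submodule.smul_mem _ _ (Submodule.subset_span ⟨k, h2 k⟩)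

variable {Q : PModel ℂ F} {q : ℕ} {g : F}

variable (D) in
/-- the moves of the family are the moves of the deformation -/
def Of (T : Fam Q) : Prop := ∀ z, ∃ (x : Pts S.P) (a : Fin 3), lp x = lp z ∧ x ∈ U S a ∧ T.m z = D.Φ a

/-- **the formal family** -/
theorem exists_fam (hΓ : Qt Γ) (hg : g ≠ 0) (h0 : Q.y 0 = 1) (hQ : oP Q + pr ℂ g = q • M)
    (hS : Same S.P Q) (hL : Ext D q) : ∃ (T : Fam Q) (x₀ : F⟦X⟧), constantCoeff x₀ = g ∧
      (∀ f ∈ GS D q, f * x₀⁻¹ ∈ T.FS 1) ∧ Of D T := by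
  choose x h1 h2 using fun k => hL _ (hQ ▸ mul_mem_Sec (y_mem_Sec (P := Q) k) (mem_Sec_pr g))
  choose p hp using hS.dn
  choose a ha using fun z => exists_U hΓ (p z)
  have h3 : constantCoeff (x 0) = g := by rw [h2, h0, one_mul]
  have h4 : ∀ f ∈ GS D q, ∀ (z : Pts Q) i, z ∈ pat Q i → ∃ v ∈ serR (oR z),
      f * (x 0)⁻¹ = x i * (x 0)⁻¹ * (D.Φ (a z)).ψ v := fun f hf z i hi => by
    obtain ⟨v, hv, rfl⟩ := GS.div hf (h1 i) (ha z) (by
      rw [h2, ← hQ]; exact (at_congr (hp z)).2 ((at_y hi).add (at_pr z hg)))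
    exact ⟨v, by simpa only [oR, hp z] using hv, mul_right_comm _ _ _⟩
  refine ⟨⟨fun k => x k * (x 0)⁻¹, fun k => ?_, PowerSeries.mul_inv_cancel _ (h3 ▸ hg),
    fun z => D.Φ (a z), fun z i hi k => h4 _ (h1 k) z i hi⟩, x 0, h3, fun f hf z i hi => ?_,
    fun z => ⟨p z, a z, hp z, ha z, rfl⟩⟩
  · rw [map_mul, constantCoeff_inv, h3, h2, mul_inv_cancel_right₀ hg]
  · simpa only [pow_one] using h4 f hf z i hi

theorem lin_of (hg : g ≠ 0) (hQ : oP Q + pr ℂ g = q • M) : Lin (oP Q) (q • M) :=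
  Lin.symm ⟨g, hg, hQ.symm⟩

variable [Algebra.EssFiniteType ℂ F]

/-- rigidity -/
theorem rigid (hΓ : Qt Γ) (hQ : Lin (oP Q) (q • M)) (hS : Same S.P Q) {T : Fam Q} (hT : Of D T)
    (hk : ∀ N ∈ On S.P, Lifts S D.η N → ∀ N' ∈ On S.P,
      bnum [M, M] * bnum [N, N'] = bnum [N, M] * bnum [M, N']) : T.Rigid := by
  intro e he m' hm n σ h0 hσ
  have h1 : ∀ x : Pts S.P, ∃ a, x ∈ U S a ∧ ∃ j, ∀ l, ∃ w ∈ serR (oR x),
      σ l = σ j * (Fam99.lev e he (D.Φ a)).ψ w := fun x => by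
    obtain ⟨z, hz⟩ := hS.up x
    obtain ⟨x', a, h1, h2, h3⟩ := hT z
    obtain rfl := lp_injective (h1.trans hz)
    refine ⟨a, h2, (hσ z).imp fun j h l => (h l).imp fun w hw =>
      ⟨by simpa only [oR, h1] using hw.1, hw.2.trans (congrArg _ ?_)⟩⟩
    refine hom_ext (m' z).ψX (Mv.ψX _) (fun c => ?_) w
    have h4 := (hm z (C c)).trans (Fam99.isLev_lev e he (T.m z) (C c)).symm
    rwa [expand_C, h3] at h4
  have h2 := Fam99.rigidStmt F Γ S hΓ M D e he _ (fun a => Fam99.isLev_lev e he _) n σ h0 h1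
  have h3 : (mxf ℂ fun j => constantCoeff (σ j)) ∈ On S.P := mxf_mem fun x => by
    obtain ⟨a, -, j, h⟩ := h1 x
    refine ⟨j, h0 j, fun l => ?_⟩
    obtain ⟨w, hw, h⟩ := h l
    rw [h, map_mul, mul_div_cancel_left₀ _ (h0 j), Mv.const]
    exact const_mem hw
  have h4 := hk _ h3 h2 _ h3
  generalize (mxf ℂ fun j => constantCoeff (σ j)) = N at *
  rw [hQ.bnum_eq, bnum_swap _ (oP Q), bnum_swap _ (oP Q), hQ.bnum_eq, hQ.bnum_eq, bnum_nsmul,
    bnum_nsmul, bnum_nsmul2]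
  rw [bnum_swap N M] at h4
  linear_combination (q : ℤ) ^ 2 * h4

/-- the polarisation has no small numerical divisor -/
theorem big (hQ : Lin (oP Q) (q • M)) (hq : 0 < q) (hM : M ∈ On Q) (hp : 0 < bnum [M, M]) {n : ℕ}
    (hl : ∀ A ∈ On Q, (∀ N ∈ On Q, bnum [M, M] * bnum [A, N] = bnum [A, M] * bnum [M, N]) →
      bnum [A, M] ≠ 0 → (n : ℤ) ≤ bnum [A, A]) :
    ∀ A ∈ On Q, ∀ k : ℤ, (∀ a ∈ On Q, bnum [oP Q - k • A, a] = 0) → (n : ℤ) ≤ bnum [A, A] := by
  intro A hA k h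
  have h1 : ∀ a ∈ On Q, q * bnum [M, a] = k * bnum [A, a] := fun a ha => by
    have := h a ha
    rwa [bnum_sub, hQ.bnum_eq, bnum_nsmul, bnum_zsmul, sub_eq_zero] at this
  have h2 : k * bnum [A, M] ≠ 0 := h1 M hM ▸ (mul_pos (Int.natCast_pos.2 hq) hp).ne'
  refine hl A hA (fun N hN => mul_left_cancel₀ (left_ne_zero_of_mul h2) ?_)
    (right_ne_zero_of_mul h2)
  linear_combination bnum [M, N] * h1 M hM - bnum [M, M] * h1 N hN

end Crest.Agent.X262.Fam6
end
end

-- ▼ part X262/Fam6/Lf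
section

/-!
# Row 262, G4 / FAM (helper6), part 3: the formal family of lines

* `exists_lfam`.
-/

set_option autoImplicit false

open PowerSeries

noncomputable section

namespace Crest.Agent.X262.Fam6

open Crest.Agent.X277 Crest.Agent.X277.Lef Crest.Agent.X277.AN.G1 Crest.Agent.X277.BD
open Crest.Agent.X277.BD.Br
open Crest.Agent.X262.Mv99 Crest.Agent.X262.Alg44
open Crest.Agent.X262.Top (Hyp Lines)
open Crest.Agent.X262.Rig38 (T3 Sy ten plk pv qv OnL)
open Crest.Agent.X262.St91 (dgl)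
open Crest.Agent.R274.Prod1_134 (IsPF)

variable {F L : Type} [Field F] [Algebra ℂ F] [Field L] [Algebra ℂ L]

theorem map_smul' (α : F →ₐ[ℂ] L) (c : ℂ⟦X⟧) (f : F⟦X⟧) :
    map (α : F →+* L) (c • f) = c • map (α : F →+* L) f := by
  rw [smul_eq, smul_eq, map_mul]
  congr 1
  ext n
  simp

theorem exists_coef {α β : F →ₐ[ℂ] L} {W : Set F⟦X⟧} {n : ℕ} {r : Fin n → F⟦X⟧}
    (h : ∀ s ∈ W, ∃ c : Fin n → ℂ⟦X⟧, s = ∑ k, c k • r k) {x : L⟦X⟧}
    (hx : x ∈ Submodule.span ℂ⟦X⟧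
      {z | ∃ s ∈ W, ∃ s' ∈ W, z = map (α : F →+* L) s * map (β : F →+* L) s'}) :
    ∃ e : Fin n → Fin n → ℂ⟦X⟧,
      x = ∑ k, ∑ l, e k l • (map (α : F →+* L) (r k) * map (β : F →+* L) (r l)) := by
  induction hx using Submodule.span_induction with
  | mem x hx =>
    obtain ⟨s, hs, s', hs', rfl⟩ := hx
    obtain ⟨c, rfl⟩ := h s hs
    obtain ⟨c', rfl⟩ := h s' hs'
    exact ⟨fun k l => c k * c' l, by
      simp only [map_sum, map_smul', Finset.sum_mul_sum, smul_mul_smul_comm]⟩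
  | zero => exact ⟨0, by simp⟩
  | add x y _ _ h h' =>
    obtain ⟨e, rfl⟩ := h
    obtain ⟨e', rfl⟩ := h'
    exact ⟨e + e', by simp [add_smul, Finset.sum_add_distrib]⟩
  | smul c x _ h =>
    obtain ⟨e, rfl⟩ := h
    exact ⟨c • e, by simp [Finset.smul_sum, smul_smul]⟩

omit [Algebra ℂ L] in
theorem v_coeff_mul {Γ₀ : Type} [LinearOrderedCommGroupWithZero Γ₀] {ν : Valuation L Γ₀} {γ : Γ₀}
    {A B : L⟦X⟧} (hA : ∀ d, ν (coeff d A) ≤ γ) (hB : ∀ d, ν (coeff d B) ≤ 1) (d : ℕ) :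
    ν (coeff d (A * B)) ≤ γ := by
  rw [coeff_mul]
  exact ν.map_sum_le fun p _ => by
    rw [map_mul, ← mul_one γ]; exact mul_le_mul' (hA _) (hB _)

theorem v_coeff_map {Γ₀ : Type} [LinearOrderedCommGroupWithZero Γ₀] {ν : Valuation L Γ₀}
    {α : F →ₐ[ℂ] L} (h : ∀ f, f ≠ 0 → ν (α f) = 1) (A : F⟦X⟧) (d : ℕ) :
    ν (coeff d (map (α : F →+* L) A)) ≤ 1 := by
  rw [coeff_map]
  rcases eq_or_ne (coeff d A) 0 with h0 | h0
  · simp [h0]
  · exact (h _ h0).le

theorem exists_plk {A : Type} [CommRing A] (a : Fin 8 → A) (i : Fin 8) :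
    ∃ j l, plk (pv a) (qv a) j l = a i := by
  fin_cases i
  exacts [⟨2, 1, by simp [plk, pv, qv]⟩, ⟨3, 1, by simp [plk, pv, qv]⟩,
    ⟨4, 1, by simp [plk, pv, qv]⟩, ⟨5, 1, by simp [plk, pv, qv]⟩, ⟨0, 2, by simp [plk, pv, qv]⟩,
    ⟨0, 3, by simp [plk, pv, qv]⟩, ⟨0, 4, by simp [plk, pv, qv]⟩, ⟨0, 5, by simp [plk, pv, qv]⟩]

variable {Γ : MvPolynomial (Fin 4) ℂ} {S : Hyp 3 Γ F} {M : BD ℂ F} {D : Dfm S M}
  {Q : PModel ℂ F} {q m : ℕ} {g : F} {G : MvPolynomial (Fin 6) ℂ}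

/-- **the formal family of lines** -/
theorem exists_lfam [Algebra.EssFiniteType ℂ F] (hN : Lift8.NuStmt) (hΓ : Qt Γ) (b : Surf.B2 F)
    (Λ : Lines G F L) (pf : IsPF Λ.ι (Λ.τ.comp Λ.ι)) (hM : M ∈ On S.P) (hf : Free M)
    (hL : Ext D 1) (hq : 0 < q) (hg : g ≠ 0) (hQ : oP Q + pr ℂ g = q • M) {T : Fam Q} {x₀ : F⟦X⟧}
    (h0 : constantCoeff x₀ = g) (hT : ∀ f ∈ GS D q, f * x₀⁻¹ ∈ T.FS 1) {u : L} (hu : u ≠ 0)
    (par : Λ.τ u = (-1) ^ m * u)
    (hp : mxf ℂ Λ.plk = pb Λ.ι M + pb (Λ.τ.comp Λ.ι) M - m • dgl Λ.ι (Λ.τ.comp Λ.ι) S.y + pr ℂ u)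
    {c : T3 ℂ⟦X⟧} (sy : Sy c) (c0 : ∀ i j k, constantCoeff (c i j k) = ten G i j k)
    {a : Fin 8 → L⟦X⟧} (a0 : ∀ i, constantCoeff (a i) = Λ.a i) (on : OnL c (pv a) (qv a))
    {w : L⟦X⟧} (w0 : constantCoeff w = 1)
    (sym : ∀ i j, map (Λ.τ : L →+* L) (w * plk (pv a) (qv a) i j) = w * plk (pv a) (qv a) i j)
    (kn : ∀ i j, C u⁻¹ * (w * plk (pv a) (qv a) i j) ∈ Submodule.span ℂ⟦X⟧
      {z | ∃ s ∈ (GS D 1 : Set F⟦X⟧), ∃ s' ∈ (GS D 1 : Set F⟦X⟧),
        z = map (Λ.ι : F →+* L) s * map (Λ.τ.comp Λ.ι : F →+* L) s'})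
    (dg : ∀ i j n (V : RZ ℂ L), (∀ f, Λ.ι f ∈ V.1) → (∀ f, (Λ.τ.comp Λ.ι) f ∈ V.1) →
      V.v (u⁻¹ * coeff n (w * plk (pv a) (qv a) i j)) ≤
        (-(m • dgl Λ.ι (Λ.τ.comp Λ.ι) S.y)).val V) : Nonempty (LFam T Λ) := by
  obtain ⟨ν, ν1, ν2, ν3, ν4⟩ := hN F L _ _ pf S.P b
  obtain ⟨n, r, h1, h2⟩ := hL.exists_gen hΓ
  obtain ⟨s₀, h3, h4⟩ := (hf.nsmul 1).exists_ne
  obtain ⟨ρ, h5, rfl⟩ := hL s₀ h3
  choose e he using fun i j => exists_coef h2 (kn i j)
  have h6 := PowerSeries.mul_inv_cancel ρ h4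
  have h7 : constantCoeff ρ⁻¹ ≠ 0 := by rw [constantCoeff_inv]; exact inv_ne_zero h4
  have h8 : map (Λ.τ : L →+* L) w = w := by simpa [plk, pv, qv] using sym 0 1
  have h9 : ∀ z, C u⁻¹ * w * (map (Λ.ι : F →+* L) ρ⁻¹ * map (Λ.τ.comp Λ.ι : F →+* L) ρ⁻¹) * z =
      C u⁻¹ * (w * z) * map (Λ.ι : F →+* L) ρ⁻¹ * map (Λ.τ.comp Λ.ι : F →+* L) ρ⁻¹ :=
    fun z => by ring
  have g1 : Λ.ι g ≠ 0 := (map_ne_zero _).2 hg
  have g2 : (Λ.τ.comp Λ.ι) g ≠ 0 := (map_ne_zero _).2 hg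
  refine ⟨{
    pf := pf, r := q, r_pos := hq, n := n, ρ := fun k => r k * ρ⁻¹, β := ρ ^ q * x₀⁻¹
    β0 := ?_, fs := fun k j hj => ?_, fsβ := hT _ (GS.pow h5 q), a := a, a0 := a0
    aτ := fun i => ?_, c := c, sy := sy, c0 := c0, on := on
    w := C u⁻¹ * w * (map (Λ.ι : F →+* L) ρ⁻¹ * map (Λ.τ.comp Λ.ι : F →+* L) ρ⁻¹)
    w0 := ?_, wτ := ?_, e := e, pl := fun i j => ?_, ν := ν, ν1 := ν1, ν2 := ν2, m := m
    ord := fun i j => ?_, lam := u ^ q * (Λ.ι g * (Λ.τ.comp Λ.ι) g)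
    lam0 := mul_ne_zero (pow_ne_zero _ hu) (mul_ne_zero g1 g2), sec := fun k σ hσ hν => ?_ }⟩
  · rw [map_mul, map_pow, constantCoeff_inv, h0]
    exact mul_ne_zero (pow_ne_zero _ h4) (inv_ne_zero hg)
  · obtain ⟨l, rfl⟩ := Nat.exists_eq_add_of_le hj
    convert hT _ (GS.mul (GS.pow (h1 k) j) (GS.pow h5 l)) using 1
    rw [pow_add, mul_pow]
    linear_combination r k ^ j * ρ ^ l * x₀⁻¹ * ((mul_pow ρ ρ⁻¹ j).symm.trans (by rw [h6, one_pow]))
  · obtain ⟨j, l, h⟩ := exists_plk a i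
    have h10 := sym j l
    rw [h, map_mul, h8] at h10
    exact mul_left_cancel₀ (fun h => by simp [h] at w0) h10
  · simp only [map_mul, constantCoeff_C, w0, const_map]
    exact mul_ne_zero (mul_ne_zero (inv_ne_zero hu) one_ne_zero)
      (mul_ne_zero ((map_ne_zero _).2 h7) ((map_ne_zero _).2 h7))
  · have h10 : ∀ f, map (Λ.τ : L →+* L) (map (Λ.ι : F →+* L) f) =
        map (Λ.τ.comp Λ.ι : F →+* L) f := fun f => by ext n; simp
    have h11 : ∀ f, map (Λ.τ : L →+* L) (map (Λ.τ.comp Λ.ι : F →+* L) f) =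
        map (Λ.ι : F →+* L) f := fun f => by ext n; simp [Λ.inv]
    have h12 : (Λ.τ : L →+* L) (u⁻¹ ^ 2) = u⁻¹ ^ 2 := by
      rw [map_pow, map_inv₀, RingHom.coe_coe, par, inv_pow, mul_pow, ← pow_mul, mul_comm m,
        pow_mul, neg_one_sq, one_pow, one_mul, inv_pow]
    rw [mul_pow, mul_pow, ← map_pow C, map_mul, map_mul, map_C, h12, map_pow _ w, h8,
      map_pow _ (_ * _), map_mul, h10, h11, mul_comm (map (Λ.ι : F →+* L) ρ⁻¹)]
  · simp only [h9, he, Finset.sum_mul, smul_mul_assoc, map_mul]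
    exact Finset.sum_congr rfl fun k _ => Finset.sum_congr rfl fun l _ => congrArg _ (by ring)
  · rw [h9]
    exact v_coeff_mul (v_coeff_mul (fun d => coeff_C_mul d _ u⁻¹ ▸ ν3 m _ (dg i j d))
      (v_coeff_map ν1 _)) (v_coeff_map ν2 _)
  · have h10 : k • (pb Λ.ι (oP Q) + pb (Λ.τ.comp Λ.ι) (oP Q)) +
        k • (pr ℂ (Λ.ι g) + pr ℂ ((Λ.τ.comp Λ.ι) g)) =
        pb Λ.ι ((q * k) • M) + pb (Λ.τ.comp Λ.ι) ((q * k) • M) := by
      simp only [mul_nsmul, ← hQ, map_nsmul, map_add, pb_pr, nsmul_add]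
      abel
    have h11 := ν4 _ (nsmul_mem hM (q * k)) (q * k * m) _ (h10 ▸ mul_mem_Sec hσ
      (pow_mem_Sec (mul_mem_Sec (mem_Sec_pr _) (mem_Sec_pr _)) k)) (by
        rwa [map_mul, map_pow, map_mul, ν1 g hg, ν2 g hg, one_mul, one_pow, mul_one])
    convert mul_mem_Sec h11 (pow_mem_Sec (mem_Sec_pr (k := ℂ) u) (q * k)) using 1
    · rw [hp, nsmul_add, nsmul_sub, nsmul_add, map_nsmul, map_nsmul, smul_smul]
    · ring

end Crest.Agent.X262.Fam6
end
end

-- ▼ part X262/Lift8/Aff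
section

/-!
# Row 262, G4 / VAN (helper8), part 2: cocycles die after a twist

* `vS G V`      : the local sections of the b-divisor `G` at the valuation ring `V`;
* `exists_tw`   : local sections extend after a twist;
* `exists_pu`   : partition of unity for a generating family of sections;
* `Cov P U`     : `U` is a cover of the space of valuations which comes from a Zariski cover of `P`;
* `exists_kill` : a cocycle dies after multiplication by a power of a hyperplane section.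
-/

set_option autoImplicit false

open Filter Topology Set

noncomputable section

namespace Crest.Agent.X262.Lift8

open Crest.Agent.X277 Crest.Agent.X277.Lef Crest.Agent.X277.AN.G1 Crest.Agent.X277.BD
open Crest.Agent.X277.BD.Br (At oP kP)
open Crest.Agent.X277.Cns (KV Ov)

section Gen

variable {k F : Type} [Field k] [Field F] [Algebra k F]

/-- local sections at a valuation ring -/
def vS (G : BD k F) (V : RZ k F) : AddSubgroup F where
  carrier := {f | V.v f ≤ G.val V}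
  zero_mem' := by simp
  add_mem' ha hb := (V.v.map_add _ _).trans (max_le ha hb)
  neg_mem' ha := by rwa [mem_ofPred_eq, Valuation.map_neg]

theorem mem_vS {G : BD k F} {V : RZ k F} {f : F} : f ∈ vS G V ↔ V.v f ≤ G.val V := Iff.rfl

variable {H a : BD k F} {g x : F}

/-- local sections extend after a twist -/
theorem exists_tw (hH : Free H) (hg : g ∈ H.Sec) (h0 : g ≠ 0)
    (h : ∀ V : RZ k F, V.v g = H.val V → V.v x ≤ a.val V) :
    ∃ N0 : ℕ, ∀ N, N0 ≤ N → x * g ^ N ∈ (a + N • H).Sec := by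
  obtain ⟨r, s, hs0, h1, h2⟩ := hH.exists_fam
  have h3 : ∀ j, ∃ N0 : ℕ, ∀ N, N0 ≤ N → ∀ V : RZ k F,
      (∀ y ∈ insert (g / s j) (range fun i => s i / s j), y ∈ V.1) →
      V.v ((g / s j) ^ N * x) ≤ a.val V := fun j =>
    Br.exists_pow_le (mem_insert _ _) fun V hV hi => h V (by
      obtain ⟨i, h4⟩ := h2 V
      have h5 := (RZ.le_iff (hs0 j)).2 (hV _ (mem_insert_of_mem _ ⟨i, rfl⟩))
      rw [inv_div, ← RZ.le_iff h0] at hi
      exact (hg V).antisymm (h4 ▸ h5.trans hi))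
  choose N0 h4 using h3
  refine ⟨Finset.univ.sup N0, fun N hN V => ?_⟩
  obtain ⟨j, hj⟩ := h2 V
  have h5 := h4 j N ((Finset.le_sup (Finset.mem_univ j)).trans hN) V (by
    rintro y (rfl | ⟨i, rfl⟩)
    · exact (RZ.le_iff (hs0 j)).1 (hj ▸ hg V)
    · exact (RZ.le_iff (hs0 j)).1 (hj ▸ h1 i V))
  rw [val_add, val_nsmul, ← hj, ← map_pow, ← div_le_iff₀ (RZ.pos (pow_ne_zero N (hs0 j))),
    ← map_div₀, mul_div_assoc, ← div_pow, mul_comm]
  exact h5

/-- partition of unity -/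
theorem exists_pu {ι : Type} [Fintype ι] {s : ι → F} (h1 : ∀ i, s i ∈ H.Sec)
    (h2 : ∀ V : RZ k F, ∃ i, V.v (s i) = H.val V) (hg : g ∈ H.Sec) (h0 : g ≠ 0) :
    ∃ (e : ℕ) (q : ι → F), (∀ i, q i ∈ (e • H).Sec) ∧ ∑ i, q i * s i = g ^ (e + 1) := by
  let R := Algebra.adjoin k (range fun i => s i / g)
  let w : ι → R.toSubring := fun i => ⟨s i / g, Algebra.subset_adjoin ⟨i, rfl⟩⟩
  have h3 : Ideal.span (range w) = ⊤ := by
    by_contra h3
    obtain ⟨V, h4, h5⟩ := Ideal.image_subset_nonunits_valuationSubring _ h3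
    let V' : RZ k F := ⟨V, KV.of_le (A := R) fun a ha => h4 ha⟩
    obtain ⟨i, hi⟩ := h2 V'
    have h6 : V'.v (s i / g) < 1 :=
      V.mem_nonunits_iff.1 (h5 ⟨w i, Ideal.subset_span ⟨i, rfl⟩, rfl⟩)
    rw [map_div₀, div_lt_one₀ (RZ.pos h0), hi] at h6
    exact h6.not_ge (hg V')
  obtain ⟨c, hc⟩ := Ideal.mem_span_range_iff_exists_fun.1 (h3 ▸ Submodule.mem_top :
    (1 : R.toSubring) ∈ Ideal.span (range w))
  have h4 : ∀ i, ∃ N0 : ℕ, ∀ N, N0 ≤ N → (c i : F) * g ^ N ∈ ((0 : BD k F) + N • H).Sec := fun i =>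
    exists_tw (free_of_fam h1 h2) hg h0 fun V hV => by
      rw [val_zero, RZ.le_one_iff]
      refine V.2.adjoin_le ?_ _ (c i).2
      rintro _ ⟨j, rfl⟩
      exact (RZ.le_iff h0).1 (hV ▸ h1 j V)
  choose N0 h5 using h4
  refine ⟨Finset.univ.sup N0, fun i => c i * g ^ Finset.univ.sup N0, fun i => by
    simpa using h5 i _ (Finset.le_sup (Finset.mem_univ i)), ?_⟩
  have h6 : ∑ i, (c i : F) * (s i / g) = 1 := by
    simpa [w] using congrArg (fun t : R.toSubring => (t : F)) hc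
  rw [← mul_one (g ^ (Finset.univ.sup N0 + 1)), ← h6, Finset.mul_sum]
  refine Finset.sum_congr rfl fun i _ => ?_
  field_simp
  ring

theorem eq_of_mul_eq {a' : BD k F} {g' : F} {V : RZ k F} (hg : g ∈ a.Sec) (hg' : g' ∈ a'.Sec)
    (h : V.v (g * g') = (a + a').val V) : V.v g = a.val V ∧ V.v g' = a'.val V := by
  rw [map_mul, val_add] at h
  constructor
  · by_contra h1
    exact (mul_lt_mul_of_lt_of_le_of_nonneg_of_pos (lt_of_le_of_ne (hg V) h1) (hg' V) zero_le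
      (a'.val_pos V)).ne h
  · by_contra h1
    exact (mul_lt_mul_of_le_of_lt_of_nonneg_of_pos (hg V) (lt_of_le_of_ne (hg' V) h1) zero_le
      (a.val_pos V)).ne h

/-- a cocycle for a cover by principal open sets dies after a twist -/
theorem exists_kill' {ι : Type} [Fintype ι] {s : ι → F} (h1 : ∀ i, s i ∈ H.Sec)
    (h2 : ∀ V : RZ k F, ∃ i, V.v (s i) = H.val V) (hg : g ∈ H.Sec) (h0 : g ≠ 0) {r : ι → F}
    (hr : ∀ i j (V : RZ k F), V.v (s i) = H.val V → V.v (s j) = H.val V → r i - r j ∈ vS a V) :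
    ∃ (e : ℕ) (r₀ : F), ∀ i (V : RZ k F), V.v (s i) = H.val V →
      g ^ e * (r₀ - r i) ∈ vS (a + e • H) V := by
  have hH := free_of_fam h1 h2
  have h3 : ∀ p : ι × ι, ∃ N0 : ℕ, ∀ N, N0 ≤ N →
      (r p.1 - r p.2) * (s p.1 * s p.2) ^ N ∈ (a + N • (H + H)).Sec := by
    rintro ⟨i, j⟩
    by_cases h4 : s i * s j = 0
    · exact ⟨1, fun N hN => by
        rw [h4, zero_pow (by omega), mul_zero]
        exact zero_mem _⟩
    · exact exists_tw (hH.add hH) (mul_mem_Sec (h1 i) (h1 j)) h4 fun V hV =>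
        hr i j V (eq_of_mul_eq (h1 i) (h1 j) hV).1 (eq_of_mul_eq (h1 i) (h1 j) hV).2
  choose N0 h4 using h3
  set M := Finset.univ.sup N0
  obtain ⟨e, q, h5, h6⟩ := exists_pu (H := M • H) (s := fun i => s i ^ M)
    (fun i => pow_mem_Sec (h1 i) M)
    (fun V => (h2 V).imp fun i hi => by rw [map_pow, hi, val_nsmul]) (pow_mem_Sec hg M)
    (pow_ne_zero M h0)
  refine ⟨M * (e + 1), (∑ i, q i * s i ^ M * r i) / (g ^ M) ^ (e + 1), fun j V hj => ?_⟩
  have h7 : g ^ (M * (e + 1)) * ((∑ i, q i * s i ^ M * r i) / (g ^ M) ^ (e + 1) - r j) =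
      ∑ i, q i * ((r i - r j) * s i ^ M) := by
    rw [pow_mul, mul_sub, mul_div_cancel₀ _ (pow_ne_zero _ (pow_ne_zero _ h0)), ← h6,
      Finset.sum_mul, ← Finset.sum_sub_distrib]
    exact Finset.sum_congr rfl fun i _ => by ring
  rw [h7]
  refine sum_mem fun i _ => ?_
  have h8 := h4 (i, j) M (Finset.le_sup (Finset.mem_univ _)) V
  rw [mul_pow, ← mul_assoc, map_mul, map_pow, hj, val_add, val_nsmul, val_add, mul_pow,
    ← mul_assoc, mul_le_mul_iff_left₀ (pow_pos (H.val_pos V) M)] at h8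
  have h9 := mul_le_mul' (h5 i V) h8
  rw [← map_mul] at h9
  refine h9.trans (le_of_eq ?_)
  simp only [val_add, val_nsmul, ← pow_mul]
  rw [mul_left_comm, ← pow_add, Nat.mul_succ]

end Gen

variable {F : Type} [Field F] [Algebra ℂ F] {P : PModel ℂ F}

variable (P) in
/-- covers of the space of valuations which are induced by Zariski covers of `P` -/
def Cov {ι : Type*} (U : ι → Set (RZ ℂ F)) : Prop :=
  ∀ x : Pts P, ∃ (c : ι) (T : Finset F), (∀ y ∈ T, y ∈ (lp x).O) ∧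
    ∀ V : RZ ℂ F, (∀ y ∈ T, y ∈ V.1) → V ∈ U c

theorem exists_den {i : Fin (P.N + 1)} {x : Pts P} (hi : x ∈ pat P i) {T : Finset F}
    (h1 : ∀ y ∈ T, y ∈ (lp x).O) : ∃ d ∈ P.A i, ev d x ≠ 0 ∧ ∀ V : RZ ℂ F,
      (∀ y ∈ P.A i, y ∈ V.1) → V.v d = 1 → ∀ y ∈ T, y ∈ V.1 := by
  classical
  choose! e he c hc h0 h3 using fun y (hy : y ∈ T) => (mem_lp_iff hi).1 (h1 y hy)
  refine ⟨∏ y ∈ T, c y, prod_mem hc, ?_, fun V hV hd y hy => ?_⟩
  · unfold ev
    rw [LP.v_prod T fun y hy => A_le hi (hc y hy)]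
    exact Finset.prod_ne_zero_iff.2 h0
  · rw [← Finset.mul_prod_erase T c hy] at hd
    have h5 : V.v (c y) ≤ 1 := RZ.le_one_iff.2 (hV _ (hc y hy))
    have h6 : V.v (∏ z ∈ T.erase y, c z) ≤ 1 := RZ.le_one_iff.2
      (hV _ (prod_mem fun z hz => hc z (Finset.mem_of_mem_erase hz)))
    have h7 : V.v (c y) = 1 := by
      refine le_antisymm h5 ?_
      rw [← hd, map_mul]
      exact mul_le_of_le_one_right' h6
    rw [← RZ.le_one_iff, ← mul_one (V.v y), ← h7, ← map_mul, h3 y hy, h7]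
    exact RZ.le_one_iff.2 (hV _ (he y hy))

/-- a cover is refined by a cover by principal open sets -/
theorem Cov.exists_fam {ι : Type*} {U : ι → Set (RZ ℂ F)} (hU : Cov P U) :
    ∃ (κ : Type) (_ : Fintype κ) (d : ℕ) (s : κ → F) (c : κ → ι), 0 < d ∧
      (∀ i, s i ∈ (d • oP P).Sec) ∧ (∀ V : RZ ℂ F, ∃ i, V.v (s i) = (d • oP P).val V) ∧
      ∀ i (V : RZ ℂ F), V.v (s i) = (d • oP P).val V → V ∈ U (c i) := by
  choose c T h1 h2 using hU
  choose i hi using fun x : Pts P => exists_pat x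
  choose d h3 h4 h5 using fun x => exists_den (hi x) (h1 x)
  choose N0 h6 using fun x => Br.exists_tw_mem (a := 0) (f := d x) (i := i x)
    fun V hV => by simpa using RZ.le_one_iff.2 (hV _ (h3 x))
  obtain ⟨X, -, hX⟩ := isCompact_univ.elim_nhds_subcover
    (fun x => {x' | x' ∈ pat P (i x) ∧ ev (d x) x' ≠ 0}) fun x _ =>
      inter_mem ((isOpen_pat P (i x)).mem_nhds (hi x)) ((isOpen_ev_ne _).mem_nhds (h4 x))
  have h7 : ∀ x : X, d x * P.y (i x) ^ X.sup N0 ∈ (X.sup N0 • oP P).Sec := fun x => by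
    simpa using h6 x _ (Finset.le_sup x.2)
  refine ⟨X, inferInstance, X.sup N0 + 1, fun x => d x * P.y (i x) ^ X.sup N0 * P.y (i x),
    fun x => c x, Nat.succ_pos _, fun x => ?_, fun V => ?_, fun x V hV => ?_⟩
  · rw [succ_nsmul]
    exact mul_mem_Sec (h7 x) (Br.y_mem_Sec _)
  · obtain ⟨x', hx'⟩ := Br.exists_ov' P V
    obtain ⟨x, hx, h8, h9⟩ := mem_iUnion₂.1 (hX (mem_univ x'))
    refine ⟨⟨x, hx⟩, ?_⟩
    change V.v (d x * P.y (i x) ^ X.sup N0 * P.y (i x)) = _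
    rw [mul_assoc, ← pow_succ]
    exact ((Br.at_y h8).nsmul _).mul_unit h9 V hx'
  · rw [succ_nsmul] at hV
    obtain ⟨h8, h9⟩ := eq_of_mul_eq (h7 x) (Br.y_mem_Sec _) hV
    rw [map_mul, map_pow, h9, val_nsmul,
      mul_left_eq_self₀, or_iff_left (pow_ne_zero _ (val_ne _ V))] at h8
    refine h2 x V (h5 x V (V.2.adjoin_le ?_) h8)
    rintro _ ⟨j, rfl⟩
    exact (RZ.le_iff (P.y_ne _)).1 (h9 ▸ Br.y_mem_Sec j V)

/-- **a cocycle dies after multiplication by a power of a hyperplane section** -/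
theorem exists_kill {ι : Type*} {U : ι → Set (RZ ℂ F)} (hU : Cov P U) {G : BD ℂ F} {r : ι → F}
    (hr : ∀ c c' V, V ∈ U c → V ∈ U c' → r c - r c' ∈ vS G V) {g : F} (hg : g ∈ (oP P).Sec)
    (h0 : g ≠ 0) : ∃ (e : ℕ) (r₀ : F), ∀ c V, V ∈ U c →
      g ^ e * (r₀ - r c) ∈ vS (G + e • oP P) V := by
  obtain ⟨κ, _, d, s, c, -, h1, h2, h3⟩ := hU.exists_fam
  obtain ⟨e, r₀, h4⟩ := exists_kill' (a := G) h1 h2 (pow_mem_Sec hg d) (pow_ne_zero d h0)
    (r := fun i => r (c i)) fun i j V hi hj => hr _ _ V (h3 i V hi) (h3 j V hj)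
  refine ⟨d * e, r₀, fun c' V hV => ?_⟩
  obtain ⟨i, hi⟩ := h2 V
  have h5 := h4 i V hi
  rw [← pow_mul, smul_smul, mul_comm e] at h5
  have h6 : g ^ (d * e) * (r (c i) - r c') ∈ vS (G + (d * e) • oP P) V := by
    rw [mem_vS, map_mul, val_add, mul_comm]
    exact mul_le_mul' (hr _ _ V (h3 i V hi) hV) (pow_mem_Sec hg _ V)
  simpa [mul_sub] using add_mem h5 h6

end Crest.Agent.X262.Lift8
end
end

-- ▼ part X262/Bl41/Core
section

/-!
# Row 262, L8-BL / L8-NU (helper41): the blow-up of the diagonal, from the local structure `Dia`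

* `qD h`, `Dia h P n` : the place of the diagonal; the diagonal is a smooth centre;
* `at_dgl_off`, `at_dgl_on` : local generators of `dgl α β P.y`;
* `Dia.bl`, `Dia.nu`  : `Bl h P` and the order along the diagonal.
-/

set_option autoImplicit false
set_option linter.unusedSectionVars false

open scoped KaehlerDifferential
open WithZero

noncomputable section

namespace Crest.Agent.X262.Bl41

open Crest.Agent.X277 Crest.Agent.X277.Lef Crest.Agent.X277.AN.G1 Crest.Agent.X277.BD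
open Crest.Agent.X277.BD.Br (On oP kP At at_mxf at_kP at_y ext_at mem_Sec_of)
open Crest.Agent.X277.Res.Out (Coords)
open Crest.Agent.X277.Res.Log (crd_of_coords)
open Crest.Agent.X277.Cns (mk prod fst snd plcP pfBasis)
open Crest.Agent.X262.St91 (dgl wd)
open Crest.Agent.X262.Blow
open Crest.Agent.X262.Lift8 (chD Bl)
open Crest.Agent.R274.Prod1_134 (IsPF)

variable {F L : Type} [Field F] [Algebra ℂ F] [Field L] [Algebra ℂ L] {α β : F →ₐ[ℂ] L}

/-! ### generators -/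

section At

variable {P Q : PModel ℂ F} {x : Pts P} {y : Pts Q} {a : BD ℂ F} {g : F}

theorem at_of_le (h : At a x g) (hd : (lp x).O ≤ (lp y).O) : At a y g :=
  fun V hV => h V fun f hf => hV f (hd hf)

theorem at_mxf' {ι : Type*} [Fintype ι] {s : ι → F} (h : ∀ l, s l / g ∈ (lp x).O) {j : ι}
    (hj : ev (s j / g) x ≠ 0) : At (mxf ℂ s) x g := by
  have h0 := LP.ne_zero_of_ne hj
  refine (at_mxf (j := j) (fun h1 => h0 (by rw [h1, zero_div])) fun l => ?_).of_ev hj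
  rw [← div_div_div_cancel_right₀ (c := g) fun h1 => h0 (by rw [h1, div_zero])]
  exact LP.div_mem (h l) hj

end At

variable (h : IsPF α β) {P : PModel ℂ F} {x x' : Pts P}

theorem α_mem {a : F} (ha : a ∈ (lp x).O) (x' : Pts P) : α a ∈ (lp (mk h x x')).O := by
  simpa using Cns.mem_mk h ha (one_mem (lp x').O)

theorem β_mem (x : Pts P) {a : F} (ha : a ∈ (lp x').O) : β a ∈ (lp (mk h x x')).O := by
  simpa using Cns.mem_mk h (one_mem (lp x).O) ha

theorem ev_α {a : F} (ha : a ∈ (lp x).O) (x' : Pts P) : ev (α a) (mk h x x') = ev a x := by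
  simpa [ev] using Cns.ev_mk h ha (one_mem (lp x').O)

theorem at_α {a : BD ℂ F} {g : F} (hg : At a x g) (x' : Pts P) :
    At (pb α a) (mk h x x') (α g) :=
  At.pb (Cns.fst_p P P h) (by rwa [Cns.fst_mk])

theorem at_β (x : Pts P) {a : BD ℂ F} {g : F} (hg : At a x' g) :
    At (pb β a) (mk h x x') (β g) :=
  At.pb (Cns.snd_p P P h) (by rwa [Cns.snd_mk])

theorem wd_div (i j : Fin (P.N + 1)) (k : Fin (P.N + 1) × Fin (P.N + 1)) :
    wd (fun i => α (P.y i)) (fun i => β (P.y i)) k / (α (P.y i) * β (P.y j)) =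
      α (P.y k.1 / P.y i) * β (P.y k.2 / P.y j) - α (P.y k.2 / P.y i) * β (P.y k.1 / P.y j) := by
  simp only [wd, map_div₀, div_mul_div_comm, sub_div]

/-- the class of the diagonal is trivial off the diagonal -/
theorem at_dgl_off (hx : x ≠ x') : At (dgl α β P.y) (mk h x x') 1 := by
  have key : ∀ i j, x ∈ pat P i → x' ∈ pat P j → ∀ k l, ev (P.y k / P.y i) x * ev (P.y l / P.y j) x'
      ≠ ev (P.y l / P.y i) x * ev (P.y k / P.y j) x' → At (dgl α β P.y) (mk h x x') 1 := by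
    intro i j hi hj k l h0
    have h1 := ((at_α h (at_y hi) x').add (at_β h x (at_y hj))).sub
      (at_mxf' (s := wd (fun i => α (P.y i)) fun i => β (P.y i)) (g := α (P.y i) * β (P.y j))
        (j := (k, l)) (fun m => by
          rw [wd_div]
          exact sub_mem (Cns.mem_mk h (y_mem hi _) (y_mem hj _))
            (Cns.mem_mk h (y_mem hi _) (y_mem hj _))) (by
          rw [wd_div, ev, LP.v_sub (Cns.mem_mk h (y_mem hi _) (y_mem hj _))
            (Cns.mem_mk h (y_mem hi _) (y_mem hj _)), ← ev, ← ev,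
            Cns.ev_mk h (y_mem hi _) (y_mem hj _), Cns.ev_mk h (y_mem hi _) (y_mem hj _)]
          exact sub_ne_zero.2 h0))
    rwa [div_self (mul_ne_zero ((map_ne_zero α).2 (P.y_ne i)) ((map_ne_zero β).2 (P.y_ne j)))]
      at h1
  have h1 : ∀ (i) (x : Pts P), ev (P.y i / P.y i) x = 1 := fun i x => by
    rw [div_self (P.y_ne i), ev, LP.v_one]
  obtain ⟨i, hi⟩ := exists_pat x
  by_cases hi' : x' ∈ pat P i
  · obtain ⟨k, hk⟩ := not_forall.1 (mt (pt_ext hi hi') hx)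
    exact key i i hi hi' k i (by rwa [h1, h1, mul_one, one_mul])
  · obtain ⟨j, hj⟩ := exists_pat x'
    rw [mem_pat_iff hj, not_not] at hi'
    exact key i j hi hj i j (by rw [h1, h1, hi', mul_zero, mul_one]; exact one_ne_zero)

/-- the differences of local functions are in the ideal of the differences of the affine
coordinates -/
theorem inI_sub {i : Fin (P.N + 1)} (hi : x ∈ pat P i) {c : F} (hc : c ∈ (lp x).O) :
    InI (lp (mk h x x)).O (fun k => α (P.y k / P.y i) - β (P.y k / P.y i)) (α c - β c) := by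
  have key : ∀ a ∈ P.A i, InI (lp (mk h x x)).O
      (fun k => α (P.y k / P.y i) - β (P.y k / P.y i)) (α a - β a) := by
    intro a ha
    induction ha using Algebra.adjoin_induction with
    | mem a ha =>
      obtain ⟨k, rfl⟩ := ha
      exact InI.self (s := fun k => α (P.y k / P.y i) - β (P.y k / P.y i)) k
    | algebraMap c => rw [AlgHom.commutes, AlgHom.commutes, sub_self]; exact InI.zero
    | add a b _ _ h1 h2 => rw [map_add, map_add, add_sub_add_comm]; exact h1.add h2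
    | mul a b ha hb h1 h2 =>
      have h3 := (h1.mul_right (β_mem h x (A_le hi hb))).add (h2.mul_left (α_mem h (A_le hi ha) x))
      rw [map_mul, map_mul]
      convert h3 using 1
      ring
  obtain ⟨a, ha, b, hb, h0, h1⟩ := (mem_lp_iff hi).1 hc
  have h2 : ev (α b) (mk h x x) ≠ 0 := by rwa [ev_α h (A_le hi hb)]
  have h3 := ((key a ha).sub ((key b hb).mul_left (β_mem h x hc))).mul_right
    ((lp (mk h x x)).inv_mem h2)
  have h4 := LP.ne_zero_of_ne h2
  convert h3 using 1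
  rw [← h1, map_mul, map_mul]
  field_simp
  ring

/-- the place of the diagonal -/
abbrev qD : Plc L F := plcP h (Plc.ofHom (AlgHom.id ℂ F)) (Plc.ofHom (AlgHom.id ℂ F))

theorem π_αβ (a b : F) : (qD h).π (α a * β b) = a * b :=
  (Cns.plcP_mul h Algebra.mem_top Algebra.mem_top).2

theorem π_α (a : F) : α a ∈ (qD h).O ∧ (qD h).π (α a) = a := Cns.plcP_left h _ Algebra.mem_top

theorem π_β (a : F) : β a ∈ (qD h).O ∧ (qD h).π (β a) = a := Cns.plcP_right h _ Algebra.mem_top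

variable {n : ℕ} {s w : Fin n → L} {l : Fin n} {Y : PModel ℂ L} {y : Pts Y}

theorem inI_s (ha : Ad (qD h) (mk h x x) s w) {c : F} (hc : c ∈ (lp x).O) :
    InI (lp (mk h x x)).O s (α c - β c) :=
  (ha.ker _ (sub_mem (α_mem h hc x) (β_mem h x hc))).1 (by
    rw [Plc.π_sub (π_α h c).1 (π_β h c).1, (π_α h c).2, (π_β h c).2, sub_self])

theorem sub_div_mem {M : LP L} (ha : Ad (qD h) (mk h x x) s w) (ho : Over (lp (mk h x x)) M s l)
    {c : F} (hc : c ∈ (lp x).O) : (α c - β c) / s l ∈ M.O :=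
  ((inI_s h ha hc).mono ho.dom.le).div_mem ho.mem

/-- the class of the diagonal on the exceptional divisor -/
theorem at_dgl_on (ha : Ad (qD h) (mk h x x) s w) (ho : Over (lp (mk h x x)) (lp y) s l) {t : F}
    (ht : t ∈ (lp x).O) (hs : s l = α t - β t) : At (dgl α β P.y) y (s l)⁻¹ := by
  obtain ⟨i, hi⟩ := exists_pat x
  have h0 := mul_ne_zero ((map_ne_zero α).2 (P.y_ne i)) ((map_ne_zero β).2 (P.y_ne i))
  obtain ⟨k, hk⟩ := ((inI_sub h hi ht).mono ho.dom.le).exists_ne (b := s l)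
    (fun k => sub_div_mem h ha ho (y_mem hi k)) (by
      rw [← hs, div_self (ha.s_ne l), LP.v_one]; exact one_ne_zero)
  have h1 := (at_of_le ((at_α h (at_y hi) x).add (at_β h x (at_y hi))) ho.dom.le).sub
    (at_mxf' (s := wd (fun i => α (P.y i)) fun i => β (P.y i))
      (g := α (P.y i) * β (P.y i) * s l) (j := (k, i)) (fun m => ?_) ?_)
  · rwa [← div_div, div_self h0, one_div] at h1
  · have h2 := (sub_mem (mul_mem (sub_div_mem h ha ho (y_mem hi m.1))
      (ho.dom.le (β_mem h x (y_mem hi m.2)))) (mul_mem (sub_div_mem h ha ho (y_mem hi m.2))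
      (ho.dom.le (β_mem h x (y_mem hi m.1)))))
    rw [← div_div, wd_div]
    convert h2 using 1
    ring
  · rwa [← div_div, wd_div, div_self (P.y_ne i), map_one, map_one, mul_one, one_mul]

/-- the chart of the blow-up in terms of the two copies of the local ring -/
theorem of_chD {M : LP L} (ha : Ad (qD h) (mk h x x) s w) (ho : Over (lp (mk h x x)) M s l)
    {t : Fin n → F} (ht : ∀ a, t a ∈ (lp x).O) (hs : ∀ a, s a = α (t a) - β (t a)) :
    M.Of (chD α β (lp x).O (s l)) := by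
  have hB : chD α β (lp x).O (s l) ≤ M.O := by
    refine Algebra.adjoin_le ?_
    rintro _ ((⟨c, hc, rfl⟩ | ⟨c, hc, rfl⟩) | ⟨c, hc, rfl⟩)
    exacts [ho.dom.le (α_mem h hc x), ho.dom.le (β_mem h x hc), sub_div_mem h ha ho hc]
  refine of_of_le ho.of hB (chB_le (fun f hf => ?_) fun a => le_lpAt _ ?_)
  · have h1 : (lp (mk h x x)).Of _ := Cns.lp_mk h x x ▸ Cns.lpP_of h
    rw [Cns.pr_eq_adjoin'] at h1
    obtain ⟨a, ha', c, hc, h0, h2⟩ := h1.loc f hf
    have h3 : Algebra.adjoin ℂ (α '' (lp x).O ∪ β '' (lp x).O) ≤ chD α β (lp x).O (s l) :=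
      Algebra.adjoin_mono Set.subset_union_left
    rw [← mul_div_cancel_right₀ f (LP.ne_zero_of_ne h0), h2]
    exact div_mem_resV hB (h3 ha') (h3 hc) (by rwa [ho.dom.eq c (h1.le hc)])
  · exact Algebra.subset_adjoin (Or.inr ⟨t a, ht a, by rw [hs a]⟩)

/-! ### the canonical divisor -/

theorem kP_prod {m : ℕ} (b : Module.Basis (Fin m) F Ω[F⁄ℂ]) :
    kP (prod P P h) (pfBasis h b b) = pb α (kP P b) + pb β (kP P b) := by
  refine ext_at (P := prod P P h) fun z => ?_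
  rw [← Cns.mk_fst_snd h z]
  obtain ⟨t, ht⟩ := exists_crd b ((fst P P h).map z)
  obtain ⟨t', ht'⟩ := exists_crd b ((snd P P h).map z)
  refine ⟨_, at_kP _ (Cns.crd_mk h ht ht'), ?_⟩
  rw [Cns.jac_pf]
  exact (at_α h (at_kP b ht) _).add (at_β h _ (at_kP b ht'))

theorem jac_bs {d : ℕ} (b : Module.Basis (Fin (2 + d)) L Ω[L⁄ℂ]) (M : LP L) {s : Fin 2 → L}
    (w : Fin d → L) {l : Fin 2} (h0 : s l ≠ 0) :
    jac b (fun k => Sum.elim s w (finSumFinEquiv.symm k)) =
      s l * jac b (fun k => Sum.elim (bs M s l) w (finSumFinEquiv.symm k)) := by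
  obtain ⟨l', h1, h2⟩ := (by decide : ∀ l : Fin 2, ∃ l', l' ≠ l ∧ ∀ a, a ≠ l → a = l') l
  let D := KaehlerDifferential.D ℂ L
  let v : Fin (2 + d) → Ω[L⁄ℂ] := fun k => D (Sum.elim (bs M s l) w (finSumFinEquiv.symm k))
  have h3 : v (finSumFinEquiv (Sum.inl l)) = D (s l) := by simp [v, bs_self]
  have h4 : v (finSumFinEquiv (Sum.inl l')) = D (s l' / s l) := by
    simp only [v, Equiv.symm_apply_apply, Sum.elim_inl, bs_ne h1, map_sub,
      Derivation.map_algebraMap, sub_zero]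
  have h5 : (fun k => D (Sum.elim s w (finSumFinEquiv.symm k))) =
      Function.update v (finSumFinEquiv (Sum.inl l')) (s l • v (finSumFinEquiv (Sum.inl l')) +
        (s l' / s l) • v (finSumFinEquiv (Sum.inl l))) := by
    funext k
    obtain ⟨k, rfl⟩ := finSumFinEquiv.surjective k
    by_cases hk : k = Sum.inl l'
    · rw [hk, Function.update_self, h3, h4, ← Derivation.leibniz, mul_div_cancel₀ _ h0,
        Equiv.symm_apply_apply, Sum.elim_inl]
    · rw [Function.update_of_ne (finSumFinEquiv.injective.ne hk)]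
      rcases k with a | a
      · have h6 : a = l := by
          by_contra h6
          exact hk (congrArg _ (h2 a h6))
        rw [h6, h3, Equiv.symm_apply_apply, Sum.elim_inl]
      · simp only [v, Equiv.symm_apply_apply, Sum.elim_inr]
  change b.det _ = _ * b.det v
  rw [h5, AlternatingMap.map_update_add, AlternatingMap.map_update_smul,
    AlternatingMap.map_update_smul, Function.update_eq_self,
    AlternatingMap.map_update_self b.det v
      (finSumFinEquiv.injective.ne (Sum.inl_injective.ne h1)), smul_zero, add_zero, smul_eq_mul]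

/-! ### the blow-up -/

variable (P n) in
/-- the diagonal is a smooth centre with equations `α t - β t` -/
structure Dia : Prop where
  ad : ∀ (x : Pts P) (t : Fin n → F), Coords (lp x).O t →
    Ad (qD h) (Cns.mk h x x) (fun l => α (t l) - β (t l)) fun l => α (t l)
  le : ∀ x x' : Pts P, (lp (Cns.mk h x x')).O ≤ (qD h).O ↔ x = x'
  smc : SmC (prod P P h) (qD h) n n

variable {h}

section Pt

variable {G : Gens (prod P P h) (qD h)} {hS : SmC (prod P P h) (qD h) n n}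

/-- the first projection -/
def pp (y : Pts (G.bl hS)) : Pts P := (fst P P h).map ((G.r hS).map y)

/-- the second projection -/
def qq (y : Pts (G.bl hS)) : Pts P := (snd P P h).map ((G.r hS).map y)

theorem mk_pq (y : Pts (G.bl hS)) : Cns.mk h (pp y) (qq y) = (G.r hS).map y := Cns.mk_fst_snd h _

theorem dom_pq (y : Pts (G.bl hS)) : (lp (Cns.mk h (pp y) (qq y))).Dom (lp y) :=
  mk_pq y ▸ Gens.r_dom y

theorem Dia.off (D : Dia h P n) {y : Pts (G.bl hS)} (hy : pp y ≠ qq y) :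
    lp y = lp (Cns.mk h (pp y) (qq y)) := by
  rw [mk_pq]
  exact (Gens.lp_off (by rwa [← mk_pq, D.le])).symm

theorem Dia.on (D : Dia h P n) (b : Module.Basis (Fin n) F Ω[F⁄ℂ]) {y : Pts (G.bl hS)}
    (hy : pp y = qq y) : ∃ (t : Fin n → F) (l : Fin n), Coords (lp (pp y)).O t ∧
      Ad (qD h) (Cns.mk h (pp y) (pp y)) (fun l => α (t l) - β (t l)) (fun l => α (t l)) ∧
      Over (lp (Cns.mk h (pp y) (pp y))) (lp y) (fun l => α (t l) - β (t l)) l := by
  obtain ⟨t, ht⟩ := exists_coords_of_basis b (pp y)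
  have h1 : Cns.mk h (pp y) (pp y) = (G.r hS).map y := by rw [← mk_pq, ← hy]
  have h2 := D.ad _ t ht
  obtain ⟨l, hl⟩ := Gens.exists_chart (h1 ▸ h2)
  exact ⟨t, l, ht, h2, h1 ▸ hl⟩

end Pt

/-- **the blow-up of the diagonal** -/
theorem Dia.bl (D : Dia h P 2) (b₀ : Module.Basis (Fin 2) F Ω[F⁄ℂ]) :
    ∃ B : Bl h P, B.Can := by
  obtain ⟨G⟩ := D.smc.exists_gens two_pos
  refine ⟨⟨G.bl D.smc, pp, qq, dom_pq, fun y => D.off, fun x x' hx => ?_, fun y hy => ?_⟩,
    fun b => ⟨pfBasis h b b, 1, one_ne_zero, ?_⟩⟩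
  · obtain ⟨y, -, hy⟩ := Gens.exists_off (G := G) (h := D.smc) (mt (D.le x x').1 hx)
    exact ⟨y, by rw [pp, hy, Cns.fst_mk], by rw [qq, hy, Cns.snd_mk]⟩
  · obtain ⟨t, l, ht, ha, ho⟩ := D.on b₀ hy
    have h1 := of_chD h ha ho ht.mem fun _ => rfl
    exact ⟨t l, ht.mem l, ha.s_ne l, h1⟩
  · rw [pr_one, add_zero, ← kP_prod h b]
    refine ext_at (P := G.bl D.smc) fun y => ?_
    by_cases hy : pp y = qq y
    · obtain ⟨t, l, ht, ha, ho⟩ := D.on b hy
      refine ⟨_, at_kP _ (crd_of_coords ((ho.coI ha.co).coords finSumFinEquiv.symm)), ?_⟩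
      have h1 := (at_of_le (at_kP (pfBasis h b b)
        (crd_of_coords (ha.co.coords finSumFinEquiv.symm))) ho.dom.le).add
        (at_dgl_on h ha ho (ht.mem l) rfl)
      rwa [jac_bs _ (lp y) _ (ha.s_ne l), mul_comm, inv_mul_cancel_left₀ (ha.s_ne l)] at h1
    · obtain ⟨z, hz⟩ := exists_crd (pfBasis h b b) (Cns.mk h (pp y) (qq y))
      refine ⟨_, at_kP _ (D.off hy ▸ hz), ?_⟩
      simpa using at_of_le ((at_kP _ hz).add (at_dgl_off h hy)) (dom_pq y).le

/-- **the order along the diagonal** -/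
theorem Dia.nu (D : Dia h P n) (hn : 0 < n) (b : Module.Basis (Fin n) F Ω[F⁄ℂ]) :
    ∃ ν : Valuation L ℤᵐ⁰, (∀ f, f ≠ 0 → ν (α f) = 1) ∧ (∀ f, f ≠ 0 → ν (β f) = 1) ∧
      (∀ (j : ℕ) (f : L), (∀ V : RZ ℂ L, (∀ g, α g ∈ V.1) → (∀ g, β g ∈ V.1) →
        V.v f ≤ (-(j • dgl α β P.y)).val V) → ν f ≤ exp (-(j : ℤ))) ∧
      ∀ a ∈ On P, ∀ (j : ℕ), ∀ σ ∈ (pb α a + pb β a).Sec, ν σ ≤ exp (-(j : ℤ)) →
        σ ∈ (pb α a + pb β a - j • dgl α β P.y).Sec := by
  obtain ⟨G⟩ := D.smc.exists_gens hn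
  obtain ⟨ν, hν⟩ := D.smc.exists_ord hn
  have hα : ∀ f, f ≠ 0 → ν (α f) = 1 := fun f hf => hν.eq_one (by rwa [(π_α h f).2])
  have hβ : ∀ f, f ≠ 0 → ν (β f) = 1 := fun f hf => hν.eq_one (by rwa [(π_β h f).2])
  refine ⟨ν, hα, hβ, fun j f hf => ?_, fun a ha j σ hσ hj => ?_⟩
  · obtain ⟨y, hy⟩ := hν.exists_on_bl G D.smc hn
    obtain ⟨t, l, ht, ha, ho⟩ := D.on b ((D.le _ _).1 (mk_pq y ▸ hν.on_bl.1 hy))
    have h1 := hf (rz ν hν.triv) (fun g => hν.le_one (π_α h g).1) fun g => hν.le_one (π_β h g).1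
    rw [← ((at_dgl_on h ha ho (ht.mem l) rfl).nsmul j).neg (rz ν hν.triv) hy, v_rz_le_iff,
      inv_pow, inv_inv, Link.v_pow_unif (hν.eqn_over ha ho).val] at h1
    exact h1
  · refine mem_Sec_of (P := G.bl D.smc) fun y => ?_
    obtain ⟨g, hg⟩ := ha (pp y)
    obtain ⟨g', hg'⟩ := ha (qq y)
    have h1 := at_of_le ((at_α h hg _).add (at_β h _ hg')) (dom_pq y).le
    by_cases hy : pp y = qq y
    · obtain ⟨t, l, ht, ha, ho⟩ := D.on b hy
      refine ⟨_, h1.sub ((at_dgl_on h ha ho (ht.mem l) rfl).nsmul j), ?_⟩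
      have h2 := (hν.eqn_over ha ho).div_pow j _ (h1.div_mem hσ) (by
        rwa [map_div₀, map_mul, hα g hg.ne, hβ g' hg'.ne, mul_one, div_one])
      rwa [inv_pow, div_inv_eq_mul, ← div_div]
    · refine ⟨_, h1.sub ((at_of_le (at_dgl_off h hy) (dom_pq y).le).nsmul j), ?_⟩
      rw [one_pow, div_one]
      exact h1.div_mem hσ

end Crest.Agent.X262.Bl41
end
end

-- ▼ part X262/Bl41/Diag

/-!
# Row 262, L8-BL / L8-NU (helper41): the diagonal is a smooth centre; `blStmt`, `nuStmt`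
-/

set_option autoImplicit false
set_option linter.unusedSectionVars false

open scoped KaehlerDifferential

noncomputable section

namespace Crest.Agent.X262.Bl41

open Crest.Agent.X277 Crest.Agent.X277.Lef Crest.Agent.X277.AN.G1
open Crest.Agent.X277.Res.Out (Coords)
open Crest.Agent.X277.Res.Log (crd_of_coords coords_of_crd van_iff_v v_coord)
open Crest.Agent.X277.Cns (mk prod pfBasis)
open Crest.Agent.X262.Blow
open Crest.Agent.R274.Prod1_134 (IsPF)
open Crest.Agent.R274.Prod4_134 (pr pr_le)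

variable {F L : Type} [Field F] [Algebra ℂ F] [Field L] [Algebra ℂ L] {α β : F →ₐ[ℂ] L}

theorem inI_iff {ι : Type} [Fintype ι] {O : Subalgebra ℂ L} {s : ι → L} {a : L} :
    InI O s a ↔ a ∈ Submodule.span O (Set.range s) := by
  rw [Submodule.mem_span_range_iff_exists_fun]
  exact ⟨fun ⟨r, hr, h⟩ => ⟨fun l => ⟨r l, hr l⟩, h.symm⟩,
    fun ⟨r, h⟩ => ⟨fun l => r l, fun l => (r l).2, h.symm⟩⟩

variable (h : IsPF α β) {P : PModel ℂ F} {x x' : Pts P} {n : ℕ} {t : Fin n → F}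

theorem ev_β (x : Pts P) {a : F} (ha : a ∈ (lp x').O) : ev (β a) (mk h x x') = ev a x' := by
  simpa [ev] using Cns.ev_mk h (one_mem (lp x).O) ha

theorem le_qD (x : Pts P) {f : L} (hf : f ∈ (lp (mk h x x)).O) :
    f ∈ (qD h).O ∧ (qD h).π f ∈ (lp x).O := by
  have h1 : (Cns.pair h (Cns.idM P) (Cns.idM P)).map x = mk h x x := by
    rw [Cns.pair_map, Cns.idM_map]
  rw [← h1] at hf
  exact ⟨Mor.mem_O _ hf, Mor.π_mem _ hf⟩

theorem eq_of_le (hx : (lp (mk h x x')).O ≤ (qD h).O) : x = x' := by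
  have key : ∀ a ∈ (lp x).O, ∀ b ∈ (lp x').O, ∀ a' ∈ (lp x).O, ∀ b' ∈ (lp x').O, a * b = a' * b' →
      ev a x * ev b x' = ev a' x * ev b' x' := by
    intro a ha b hb a' ha' b' hb' h0
    have h1 := ev_eq_zero hx (a := α a * β b - α a' * β b') (by
      rw [Plc.π_sub (hx (Cns.mem_mk h ha hb)) (hx (Cns.mem_mk h ha' hb')), π_αβ, π_αβ, h0, sub_self])
    rwa [ev, LP.v_sub (Cns.mem_mk h ha hb) (Cns.mem_mk h ha' hb'), ← ev, ← ev, Cns.ev_mk h ha hb,
      Cns.ev_mk h ha' hb', sub_eq_zero] at h1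
  obtain ⟨i, hi⟩ := exists_pat x
  obtain ⟨j, hj⟩ := exists_pat x'
  have h1 := key _ (y_mem hi j) _ (y_mem hj i) 1 (one_mem _) 1 (one_mem _) (by
    rw [div_mul_div_cancel₀ (P.y_ne i), div_self (P.y_ne j), mul_one])
  have h2 : x' ∈ pat P i := (mem_pat_iff hj).2 fun h3 => by simp [h3, ev] at h1
  refine pt_ext hi h2 fun k => ?_
  simpa [ev] using key _ (y_mem hi k) 1 (one_mem _) 1 (one_mem _) _ (y_mem h2 k) (mul_comm _ _)

/-- Nakayama: the differences of the coordinates generate the ideal of the differences -/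
theorem inI_crd (ht : Coords (lp x).O t) {c : F} (hc : c ∈ (lp x).O) :
    InI (lp (mk h x x)).O (fun l => α (t l) - β (t l)) (α c - β c) := by
  obtain ⟨i, hi⟩ := exists_pat x
  rw [inI_iff]
  refine Submodule.le_of_le_smul_of_le_jacobson_bot (I := IsLocalRing.maximalIdeal _)
    (Submodule.fg_span (Set.finite_range _)) (IsLocalRing.maximalIdeal_le_jacobson _)
    (Submodule.span_le.2 ?_) (inI_iff.1 (inI_sub h hi hc))
  rintro _ ⟨k, rfl⟩
  obtain ⟨r, hr, h1⟩ := (crd_of_coords ht).gen _ (y_mem hi k)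
  have h2 : α (P.y k / P.y i) - β (P.y k / P.y i) =
      ∑ l, α (r l) * (α (t l) - β (t l)) + ∑ l, β (t l) * (α (r l) - β (r l)) := by
    simp only [v_coord ht, map_zero, sub_zero] at h1
    rw [h1, map_add, map_add, AlgHom.commutes, AlgHom.commutes, add_sub_add_left_eq_sub, map_sum,
      map_sum, ← Finset.sum_sub_distrib, ← Finset.sum_add_distrib]
    refine Finset.sum_congr rfl fun l _ => ?_
    rw [map_mul, map_mul]
    ring
  change α (P.y k / P.y i) - β (P.y k / P.y i) ∈ _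
  rw [h2]
  refine Submodule.add_mem_sup (inI_iff.1 ⟨_, fun l => α_mem h (hr l) x, rfl⟩)
    (Submodule.sum_mem _ fun l _ => Submodule.smul_mem_smul
      (r := (⟨β (t l), β_mem h x (ht.mem l)⟩ : (lp (mk h x x)).O)) ?_ (inI_iff.1 (inI_sub h hi (hr l))))
  rw [IsLocalRing.mem_maximalIdeal, mem_nonunits_iff, LP.isUnit_iff, not_not]
  exact (ev_β h x (ht.mem l)).trans (v_coord ht l)

theorem inI_π (ht : Coords (lp x).O t) {f : L} (hf : f ∈ (lp (mk h x x)).O) :
    InI (lp (mk h x x)).O (fun l => α (t l) - β (t l)) (f - α ((qD h).π f)) := by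
  have h1 : (lp (mk h x x)).Of _ := Cns.lp_mk h x x ▸ Cns.lpP_of h
  rw [Cns.pr_eq_adjoin'] at h1
  have key : ∀ a ∈ Algebra.adjoin ℂ (α '' (lp x).O ∪ β '' (lp x).O),
      InI (lp (mk h x x)).O (fun l => α (t l) - β (t l)) (a - α ((qD h).π a)) := by
    intro a ha
    induction ha using Algebra.adjoin_induction with
    | mem a ha =>
      rcases ha with ⟨c, -, rfl⟩ | ⟨c, hc, rfl⟩
      · rw [(π_α h c).2, sub_self]; exact InI.zero
      · rw [(π_β h c).2, ← neg_sub]; exact (inI_crd h ht hc).neg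
    | algebraMap c => rw [(qD h).π_alg, AlgHom.commutes, sub_self]; exact InI.zero
    | add a b ha hb h2 h3 =>
      rw [(qD h).π_add (le_qD h x (h1.le ha)).1 (le_qD h x (h1.le hb)).1, map_add, add_sub_add_comm]
      exact h2.add h3
    | mul a b ha hb h2 h3 =>
      have h4 := (h2.mul_right (h1.le hb)).add (h3.mul_left (α_mem h (le_qD h x (h1.le ha)).2 x))
      rw [(qD h).π_mul (le_qD h x (h1.le ha)).1 (le_qD h x (h1.le hb)).1, map_mul]
      convert h4 using 1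
      ring
  obtain ⟨a, ha, b, hb, h0, h2⟩ := h1.loc f hf
  have h3 := ((key a ha).sub ((key b hb).mul_left (α_mem h (le_qD h x hf).2 x))).mul_right
    ((lp (mk h x x)).inv_mem h0)
  have h4 := LP.ne_zero_of_ne h0
  convert h3 using 1
  rw [← h2, (qD h).π_mul (le_qD h x hf).1 (le_qD h x (h1.le hb)).1, map_mul]
  field_simp
  ring

theorem coI_dia (ht : Coords (lp x).O t) : CoI (lp (mk h x x)).O
    (Sum.elim (fun l => α (t l) - β (t l)) fun l => α (t l)) := by
  obtain ⟨b⟩ := basis_of_coords ht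
  have hα : ∀ l, ev (α (t l)) (mk h x x) = 0 := fun l => (ev_α h (ht.mem l) x).trans (v_coord ht l)
  have hβ : ∀ l, ev (β (t l)) (mk h x x) = 0 := fun l => (ev_β h x (ht.mem l)).trans (v_coord ht l)
  have h1 : CoI (lp (mk h x x)).O (Sum.elim (fun l => α (t l)) fun l => β (t l)) := by
    have h2 := (coI_iff.2 (coords_of_crd (pfBasis h b b)
      (Cns.crd_mk h (crd_of_coords ht) (crd_of_coords ht)) fun l => by
        refine Fin.addCases (fun l => ?_) (fun l => ?_) l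
        · rw [Fin.append_left, hα]
        · rw [Fin.append_right, hβ])).reindex finSumFinEquiv
    convert h2 using 1
    funext l
    rcases l with l | l
    · exact (Fin.append_left (fun l => α (t l)) (fun l => β (t l)) l).symm
    · exact (Fin.append_right (fun l => α (t l)) (fun l => β (t l)) l).symm
  refine ⟨?_, fun f hf => (h1.gen f hf).trans ?_, ?_⟩
  · rintro (l | l)
    · refine van_iff_v.2 ⟨sub_mem (h1.mem (Sum.inl l)) (h1.mem (Sum.inr l)), ?_⟩
      rw [Sum.elim_inl, LP.v_sub (α_mem h (ht.mem l) x) (β_mem h x (ht.mem l)), ← ev, ← ev, hα, hβ,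
        sub_self]
    · exact h1.van (Sum.inl l)
  · rintro (l | l)
    · exact InI.self (s := Sum.elim (fun l => α (t l) - β (t l)) fun l => α (t l)) (Sum.inr l)
    · simpa using (InI.self (O := (lp (mk h x x)).O)
        (s := Sum.elim (fun l => α (t l) - β (t l)) fun l => α (t l)) (Sum.inr l)).sub
        (InI.self (Sum.inl l))
  · obtain ⟨d, h2, h3⟩ := h1.der
    have h4 : ∀ j l, d j (α (t l)) = if j = Sum.inl l then 1 else 0 := fun j l => h3 j (Sum.inl l)
    have h5 : ∀ j l, d j (β (t l)) = if j = Sum.inr l then 1 else 0 := fun j l => h3 j (Sum.inr l)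
    refine ⟨Sum.elim (fun l => -d (Sum.inr l)) fun l => d (Sum.inl l) + d (Sum.inr l), ?_, ?_⟩
    · rintro (l | l) f hf
      · exact neg_mem (h2 _ f hf)
      · exact add_mem (h2 _ f hf) (h2 _ f hf)
    · rintro (l | l) (j | j) <;> simp [h4, h5]

theorem ad_dia (ht : Coords (lp x).O t) :
    Ad (qD h) (mk h x x) (fun l => α (t l) - β (t l)) fun l => α (t l) where
  le _ hf := (le_qD h x hf).1
  co := coI_dia h ht
  ker a ha := ⟨fun h0 => by simpa [h0] using inI_π h ht ha, fun h0 =>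
    (h0.mono fun _ hf => (le_qD h x hf).1).π_eq (fun l => sub_mem (π_α h _).1 (π_β h _).1)
      fun l => by rw [Plc.π_sub (π_α h _).1 (π_β h _).1, (π_α h _).2, (π_β h _).2, sub_self]⟩

theorem exists_den (x : Pts P) {a : L} (ha : a ∈ pr α β ⊤ ⊤) :
    ∃ e ∈ (lp (mk h x x)).O, (qD h).π e ≠ 0 ∧ e * a ∈ (lp (mk h x x)).O := by
  rw [Cns.pr_eq_adjoin'] at ha
  induction ha using Algebra.adjoin_induction with
  | mem a ha =>
    rcases ha with ⟨f, -, rfl⟩ | ⟨f, -, rfl⟩ <;> obtain ⟨a, ha, c, hc, h0, rfl⟩ := frac_lp x f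
    · exact ⟨α c, α_mem h hc x, by rwa [(π_α h c).2], by
        rw [← map_mul, mul_div_cancel₀ _ h0]; exact α_mem h ha x⟩
    · exact ⟨β c, β_mem h x hc, by rwa [(π_β h c).2], by
        rw [← map_mul, mul_div_cancel₀ _ h0]; exact β_mem h x ha⟩
  | algebraMap c => exact ⟨1, one_mem _, by simp, mul_mem (one_mem _) (algebraMap_mem _ _)⟩
  | add a b _ _ h1 h2 =>
    obtain ⟨e, he, h0, h3⟩ := h1
    obtain ⟨e', he', h0', h3'⟩ := h2
    refine ⟨e * e', mul_mem he he', ?_, ?_⟩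
    · rw [(qD h).π_mul (le_qD h x he).1 (le_qD h x he').1]; exact mul_ne_zero h0 h0'
    · rw [mul_add, mul_comm e, mul_assoc, mul_comm e' e, mul_assoc]
      exact add_mem (mul_mem he' h3) (mul_mem he h3')
  | mul a b _ _ h1 h2 =>
    obtain ⟨e, he, h0, h3⟩ := h1
    obtain ⟨e', he', h0', h3'⟩ := h2
    refine ⟨e * e', mul_mem he he', ?_, mul_mul_mul_comm e a e' b ▸ mul_mem h3 h3'⟩
    rw [(qD h).π_mul (le_qD h x he).1 (le_qD h x he').1]; exact mul_ne_zero h0 h0'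

theorem loc_dia (x : Pts P) (f : L) (hf : f ∈ (qD h).O) : ∃ a ∈ (lp (mk h x x)).O,
    ∃ c ∈ (lp (mk h x x)).O, (qD h).π c ≠ 0 ∧ f * c = a := by
  obtain ⟨a, c, h0, h1⟩ := (mem_plcAt _).1 hf
  obtain ⟨e, he, h2, h3⟩ := exists_den h x a.2
  obtain ⟨e', he', h2', h3'⟩ := exists_den h x c.2
  refine ⟨_, mul_mem he' h3, _, mul_mem he h3', ?_, by rw [← h1]; ring⟩
  have h4 : (c : L) ∈ (qD h).O := le_plcAt _ c.2
  rw [(qD h).π_mul (le_qD h x he).1 (le_qD h x h3').1, (qD h).π_mul (le_qD h x he').1 h4]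
  exact mul_ne_zero h2 (mul_ne_zero h2' ((plcAt_π _ c).trans_ne h0))

/-- **the diagonal is a smooth centre** -/
theorem dia (P : PModel ℂ F) (b : Module.Basis (Fin n) F Ω[F⁄ℂ]) : Dia h P n := by
  obtain ⟨x₀⟩ : Nonempty (Pts P) := inferInstance
  refine ⟨fun x t => ad_dia h, fun x x' => ⟨eq_of_le h, ?_⟩, fun f => ⟨α f, π_α h f⟩,
    ⟨mk h x₀ x₀, fun _ hf => (le_qD h x₀ hf).1⟩,
    loc_of_one (fun _ hf => (le_qD h x₀ hf).1) (loc_dia h x₀), fun z hz => ?_⟩
  · rintro rfl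
    exact fun _ hf => (le_qD h x hf).1
  · rw [← Cns.mk_fst_snd h z] at hz ⊢
    rw [← eq_of_le h hz]
    obtain ⟨t, ht⟩ := exists_coords_of_basis b ((Cns.fst P P h).map z)
    exact ⟨_, _, ad_dia h ht⟩

/-- **L8-BL** -/
theorem blStmt : Lift8.BlStmt := fun _ _ _ _ _ _ _ _ h P b => (dia h P b).bl b

/-- **L8-NU** -/
theorem nuStmt : Lift8.NuStmt := fun _ _ _ _ _ _ _ _ h P b => (dia h P b).nu two_pos b

end Crest.Agent.X262.Bl41
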